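import Crest.Agent.N41.Defs
import Crest.Agent.N41.DefsC
import Crest.Agent.N41.ES.HC_Mg
import Crest.Agent.N41.Local.Norm
import Crest.Agent.N41.PairApp_Mg
import Crest.Agent.N41.ES.Lift
import Crest.Agent.N41.Step.Defs
import Crest.Agent.N41.Pair.Mean
import Crest.Agent.N41.Pair.Abel

-- ▼ part N41/Main/Wrap
section

/-!
# Row 41: the two statements from `MainStmt`
-/

set_option autoImplicit false

namespace Crest.Agent.N41.Main

open Finset Polynomial

theorem of_main_false (hm : MainStmt false) (k : ℕ) (hk : 2 ≤ k) :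
    ∃ c : ℝ, 0 < c ∧ c < 1 ∧
      ∀ h : Polynomial ℤ, h.natDegree = k → 0 < h.leadingCoeff →
        (∀ q : ℕ, 1 ≤ q → ∃ t : ℤ, (q : ℤ) ∣ h.eval t) →
        ∃ C : ℝ, 1 ≤ C ∧ ∃ N₀ : ℕ, 1 ≤ N₀ ∧ ∀ N : ℕ, N₀ ≤ N →
          ∀ A : Finset ℤ, (∀ a ∈ A, 1 ≤ a ∧ a ≤ (N : ℤ)) →
            (∀ a ∈ A, ∀ b ∈ A, ∀ n : ℕ, 1 ≤ n → a - b = h.eval (n : ℤ) → a = b) →
            (A.card : ℝ) ≤ C * (N : ℝ) ^ ((1 : ℝ) - c) := by
  obtain ⟨c, hc0, hc1, H⟩ := hm k hk
  refine ⟨c, hc0, hc1, fun h hdeg hlc hroot => ?_⟩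
  obtain ⟨C, hC, N₀, hN₀, H⟩ := H h hdeg hlc fun m hm => by
    obtain ⟨t, ht⟩ := hroot m hm
    exact ⟨t, ht, fun h => absurd h (by simp)⟩
  exact ⟨C, hC, N₀, hN₀, fun N hN A hA hf =>
    H N hN A hA fun a ha b hb n hn _ hab => hf a ha b hb n hn hab⟩

theorem of_main_true (hm : MainStmt true) (h : Polynomial ℤ)
    (hdeg : 2 ≤ h.natDegree) (hlc : 0 < h.leadingCoeff)
    (hroot : ∀ q : ℕ, 1 ≤ q → ∃ r : ℤ, IsCoprime r (q : ℤ) ∧ (q : ℤ) ∣ h.eval r) :
    ∃ c : ℝ, 0 < c ∧ ∃ C : ℝ, 1 ≤ C ∧ ∀ N : ℕ, 1 ≤ N →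
      ∀ A : Finset ℤ, (∀ a ∈ A, 1 ≤ a ∧ a ≤ (N : ℤ)) →
        (∀ a ∈ A, ∀ b ∈ A, ∀ p : ℕ, p.Prime → a - b = h.eval (p : ℤ) → a = b) →
        (A.card : ℝ) ≤ C * (N : ℝ) ^ ((1 : ℝ) - c) := by
  obtain ⟨c, hc0, hc1, H⟩ := hm _ hdeg
  obtain ⟨C, hC, N₀, hN₀, H⟩ := H h rfl hlc fun m hm => by
    obtain ⟨t, ht1, ht2⟩ := hroot m hm
    exact ⟨t, ht2, fun _ => by simpa using ht1⟩
  refine ⟨c, hc0, max C N₀, le_trans hC (le_max_left _ _), fun N hN A hA hf => ?_⟩
  have hN1 : (1 : ℝ) ≤ N := by exact_mod_cast hN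
  have hpow : (1 : ℝ) ≤ (N : ℝ) ^ ((1 : ℝ) - c) := Real.one_le_rpow hN1 (by linarith)
  by_cases hNN : N₀ ≤ N
  · refine (H N hNN A hA fun a ha b hb n _ hp hab => hf a ha b hb n (by simpa using hp) hab).trans ?_
    gcongr
    exact le_max_left _ _
  · have h1 : A.card ≤ N := by
      have : A ⊆ Icc (1 : ℤ) N := fun a ha => mem_Icc.2 (hA a ha)
      simpa using card_le_card this
    have h2 : (A.card : ℝ) ≤ N₀ := by exact_mod_cast (by omega : A.card ≤ N₀)
    have h3 : (N₀ : ℝ) ≤ max C N₀ := le_max_right _ _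
    have h4 : (0 : ℝ) ≤ N₀ := Nat.cast_nonneg _
    nlinarith

end Crest.Agent.N41.Main
end

-- ▼ part N41/Exp/Cov
section

/-!
# Row 41, modules C3c, C3d (helper98)
-/

set_option autoImplicit false

open Finset Polynomial

namespace Crest.Agent.N41.Exp

theorem nonconstStmt : NonconstStmt := by
  intro pr r d g hg hroot
  refine ⟨fun p hp => ?_, fun hpr => ?_⟩
  · by_contra hcon
    push Not at hcon
    obtain ⟨n, hn, -⟩ := hroot p hp.one_lt.le
    have h0 : (p : ℤ) ∣ g.coeff 0 := by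
      rw [eval_eq_sum_range, sum_range_succ'] at hn
      simp only [pow_zero, mul_one] at hn
      exact (dvd_add_right (dvd_sum fun i _ => (hcon (i + 1) (by omega)).mul_right _)).1 hn
    have h1 : C (p : ℤ) ∣ g := (C_dvd_iff_dvd_coeff _ _).2 fun i => by
      rcases Nat.eq_zero_or_pos i with rfl | hi
      exacts [h0, hcon i hi]
    have h2 := Int.isUnit_iff_natAbs_eq.1 (hg _ h1)
    exact hp.one_lt.ne' (by simpa using h2)
  · obtain ⟨n, -, hn⟩ := hroot 1 le_rfl
    have h1 := hn hpr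
    rw [Nat.cast_one, one_mul, IsCoprime.add_mul_left_left_iff] at h1
    exact Nat.isCoprime_iff_coprime.1 h1

lemma evz_refine {p : ℕ} {μ ρ m : ℕ} {g g' : ℤ[X]}
    (h : C (μ : ℤ) * g' = g.comp (C (ρ : ℤ) + C (m : ℤ) * X)) (n : ZMod p) :
    (μ : ZMod p) * evz p g' n = evz p g (ρ + m * n) ∧
      (μ : ZMod p) * evz p (derivative g') n = m * evz p (derivative g) (ρ + m * n) := by
  have h0 : C (μ : ZMod p) * g'.map (Int.castRingHom (ZMod p)) =
      (g.map (Int.castRingHom (ZMod p))).comp (C (ρ : ZMod p) + C (m : ZMod p) * X) := by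
    have := congrArg (Polynomial.map (Int.castRingHom (ZMod p))) h
    rwa [Polynomial.map_mul, Polynomial.map_comp, Polynomial.map_add, Polynomial.map_mul, map_C,
      map_C, map_C, map_X, map_natCast (Int.castRingHom (ZMod p)),
      map_natCast (Int.castRingHom (ZMod p)), map_natCast (Int.castRingHom (ZMod p))] at this
  have h1 := congrArg (eval n) h0
  have h2 := congrArg (fun Q => eval n (derivative Q)) h0
  simp only [derivative_comp, eval_mul, eval_comp, derivative_C_mul, eval_C, eval_add, eval_X,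
    derivative_add, derivative_C, derivative_X, zero_add, mul_one] at h1 h2
  unfold evz
  rw [← derivative_map, ← derivative_map]
  exact ⟨h1, h2⟩

theorem covStmt : CovStmt := by
  intro pr p _ r d ρ m μ g g' hp hm hμ h t
  have : Fact p.Prime := ⟨hp⟩
  have hm0 : (m : ZMod p) ≠ 0 := fun h => hm ((ZMod.natCast_eq_zero_iff _ _).1 h)
  have hμ0 : (μ : ZMod p) ≠ 0 := fun h => hμ ((ZMod.natCast_eq_zero_iff _ _).1 h)
  let φ : ZMod p ≃ ZMod p := (Equiv.mulLeft₀ (m : ZMod p) hm0).trans (Equiv.addLeft (ρ : ZMod p))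
  have hφ : ∀ n, φ n = ρ + m * n := fun n => rfl
  have hadm : ∀ n, n ∈ adm pr p (r + d * ρ) (d * m) g' ↔ φ n ∈ adm pr p r d g := by
    intro n
    have h2 := (evz_refine h n).2
    have h3 : ((r + d * ρ : ℕ) : ZMod p) + ((d * m : ℕ) : ZMod p) * n = r + d * (ρ + m * n) := by
      push_cast; ring
    unfold adm
    rw [mem_filter, mem_filter, hφ, h3]
    simp only [mem_univ, true_and]
    refine and_congr_left fun _ => not_congr ⟨fun h4 => ?_, fun h4 => ?_⟩
    · rw [h4, mul_zero] at h2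
      exact (mul_eq_zero.1 h2.symm).resolve_left hm0
    · rw [h4, mul_zero] at h2
      exact (mul_eq_zero.1 h2).resolve_left hμ0
  have hcard : (adm pr p (r + d * ρ) (d * m) g').card = (adm pr p r d g).card :=
    card_equiv φ hadm
  unfold ker push
  refine sum_equiv φ (fun n => ?_) (fun n _ => ?_)
  · rw [mem_filter, mem_filter, hφ, ← (evz_refine h n).1]
    simp only [mem_univ, true_and]
    exact ⟨fun h4 => by rw [h4], fun h4 => mul_left_cancel₀ hμ0 h4⟩
  · unfold wadm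
    rw [hcard]
    exact if_congr (hadm n) rfl rfl

end Crest.Agent.N41.Exp
end

-- ▼ part N41/Main/All
section

/-!
# Row 41: assembly of the modules
-/

set_option autoImplicit false

namespace Crest.Agent.N41.Main

theorem main_of (pr : Bool) (tl : TailStmt) (hnf : Step.NFStmt) (hP : PairStmt pr) :
    MainStmt pr :=
  main pr Local.localStmt Local.chess (Step.step_of ES.hc tl hnf) ES.liftStmt refine localExp
    Exp.nonconstStmt (descent refine Exp.covStmt Local.transport Local.chess)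
    (pairApp pr hP small Arch.arch localExp Exp.nonconstStmt)

end Crest.Agent.N41.Main
end

-- ▼ part N41/ES/Tail
section

/-!
# Row 41, part B4: tensorised maximal correlation and the tail bound
-/

set_option autoImplicit false
open Finset
open scoped BigOperators

namespace Crest.Agent.N41.ES

open Local (Om tens)

section Tensor
open Matrix
variable {ι : Type} [Fintype ι] [DecidableEq ι]

/-- the quadratic form of a block kernel -/
def blk {A B : Type} [Fintype A] [Fintype B] (Q : A → A → ℝ) (P : A → B → ℝ) (N : B → B → ℝ)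
    (g : A → ℝ) (G : B → ℝ) : ℝ :=
  ∑ u, ∑ u', g u * g u' * Q u u' + 2 * ∑ u, ∑ w, g u * G w * P u w + ∑ w, ∑ w', G w * G w' * N w w'

lemma blk_eq {A B : Type} [Fintype A] [Fintype B] (Q : A → A → ℝ) (P : A → B → ℝ) (N : B → B → ℝ)
    (z : A ⊕ B → ℝ) :
    star z ⬝ᵥ (fromBlocks (of Q) (of P) (of fun w u => P u w) (of N) *ᵥ z) =
      blk Q P N (fun u => z (.inl u)) fun w => z (.inr w) := by
  simp only [blk, dotProduct, mulVec, star_trivial, Fintype.sum_sum_type, fromBlocks_apply₁₁,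
    fromBlocks_apply₁₂, fromBlocks_apply₂₁, fromBlocks_apply₂₂, of_apply, mul_add, Finset.mul_sum,
    Finset.sum_add_distrib]
  rw [Finset.sum_comm (f := fun w u => z (.inr w) * (P u w * z (.inl u)))]
  simp only [two_mul, Finset.sum_add_distrib, add_assoc]
  congr 1
  · exact Finset.sum_congr rfl fun _ _ => Finset.sum_congr rfl fun _ _ => by ring
  congr 1
  · exact Finset.sum_congr rfl fun _ _ => Finset.sum_congr rfl fun _ _ => by ring
  congr 1
  · exact Finset.sum_congr rfl fun _ _ => Finset.sum_congr rfl fun _ _ => by ring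
  · exact Finset.sum_congr rfl fun _ _ => Finset.sum_congr rfl fun _ _ => by ring

/-- positivity of block forms tensorises -/
lemma blk_tensor {A B : ι → Type} [∀ i, Fintype (A i)] [∀ i, Fintype (B i)]
    (Q : ∀ i, A i → A i → ℝ) (P : ∀ i, A i → B i → ℝ) (N : ∀ i, B i → B i → ℝ)
    (hQ : ∀ i u u', Q i u u' = Q i u' u) (hN : ∀ i w w', N i w w' = N i w' w)
    (h : ∀ i g G, 0 ≤ blk (Q i) (P i) (N i) g G) (g : (∀ i, A i) → ℝ) (G : (∀ i, B i) → ℝ) :
    0 ≤ blk (fun u u' => ∏ i, Q i (u i) (u' i)) (fun u w => ∏ i, P i (u i) (w i))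
      (fun w w' => ∏ i, N i (w i) (w' i)) g G := by
  let M : ∀ i, Matrix (A i ⊕ B i) (A i ⊕ B i) ℝ := fun i =>
    fromBlocks (of (Q i)) (of (P i)) (of fun w u => P i u w) (of (N i))
  have hM : ∀ i, (M i).PosSemidef := fun i => by
    refine PosSemidef.of_dotProduct_mulVec_nonneg ?_ fun z => ?_
    · ext u v
      rcases u with u | u <;> rcases v with v | v
      · simp [M, hQ i u]
      · simp [M]
      · simp [M]
      · simp [M, hN i u]
    · rw [blk_eq]; exact h i _ _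
  let φ : ∀ i, ((∀ i, A i) ⊕ ∀ i, B i) → A i ⊕ B i := fun i => Sum.map (· i) (· i)
  have h1 := Local.psd_prod univ (fun i => (M i).submatrix (φ i) (φ i))
    fun i _ => (hM i).submatrix _
  have h2 : (Matrix.of fun u v => ∏ i, (M i).submatrix (φ i) (φ i) u v) =
      fromBlocks (of fun u u' => ∏ i, Q i (u i) (u' i)) (of fun u w => ∏ i, P i (u i) (w i))
        (of fun w u => ∏ i, P i (u i) (w i)) (of fun w w' => ∏ i, N i (w i) (w' i)) := by
    ext u v
    rcases u with u | u <;> rcases v with v | v <;> simp [M, φ]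
  have h3 := h1.dotProduct_mulVec_nonneg (Sum.elim g G)
  rw [h2, blk_eq] at h3
  exact h3

end Tensor

section Kernel

open Classical in
/-- the joint law of two maps -/
noncomputable def pk {X A B : Type} [Fintype X] (n : X → ℝ) (a : X → A) (b : X → B) (u : A)
    (w : B) : ℝ := ∑ x, n x * ((if a x = u then 1 else 0) * if b x = w then 1 else 0)

lemma sum_pk {X A B : Type} [Fintype X] [Fintype A] [Fintype B] (n : X → ℝ) (a : X → A)
    (b : X → B) (F : A → ℝ) (G : B → ℝ) :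
    ∑ u, ∑ w, F u * G w * pk n a b u w = ∑ x, n x * (F (a x) * G (b x)) := by
  classical
  simp only [pk, Finset.mul_sum]
  rw [Finset.sum_congr rfl fun u _ => Finset.sum_comm, Finset.sum_comm]
  refine Finset.sum_congr rfl fun x _ => ?_
  simp [mul_ite, mul_comm]

lemma pk_symm {X A : Type} [Fintype X] (n : X → ℝ) (a : X → A) (u w : A) :
    pk n a a u w = pk n a a w u :=
  Finset.sum_congr rfl fun _ _ => by ring

variable {ι : Type} [Fintype ι] [DecidableEq ι] {V : ι → Type} [∀ i, Fintype (V i)]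

lemma pk_tens {D : ℕ} {A B : ι → Type} (ν : ∀ i, (Om D → V i) → ℝ) (a : ∀ i, (Om D → V i) → A i)
    (b : ∀ i, (Om D → V i) → B i) (u : ∀ i, A i) (w : ∀ i, B i) :
    ∏ i, pk (ν i) (a i) (b i) (u i) (w i) =
      pk (tens ν) (fun x i => a i fun c => x c i) (fun x i => b i fun c => x c i) u w := by
  classical
  simp only [pk]
  rw [← Local.sum_tens_prod]
  refine Finset.sum_congr rfl fun x _ => ?_
  rw [Finset.prod_mul_distrib, Finset.prod_mul_distrib, Finset.prod_boole, Finset.prod_boole]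
  simp only [Finset.mem_univ, true_imp_iff, funext_iff, tens]

open Classical in
/-- normalised delta function -/
noncomputable def dl {W : Type} [Fintype W] (s t : W) : ℝ :=
  if t = s then (Fintype.card W : ℝ) else 0

lemma dl_symm {W : Type} [Fintype W] (s t : W) : dl s t = dl t s := by
  by_cases h : s = t
  · rw [h]
  · simp [dl, h, Ne.symm h]

lemma expect_mul_dl {W : Type} [Fintype W] (g : W → ℝ) (s : W) : 𝔼 t, g t * dl s t = g s := by
  classical
  have : Nonempty W := ⟨s⟩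
  have hc : (Fintype.card W : ℝ) ≠ 0 := by exact_mod_cast Fintype.card_ne_zero
  rw [Fintype.expect_eq_sum_div_card]
  simp [dl, hc]

variable [∀ i, Nonempty (V i)]

lemma avg_kernel (U : Finset ι) (h : (∀ i, V i) → ℝ) (v : ∀ i, V i) :
    avg Uᶜ h v = 𝔼 v', h v' * ∏ i ∈ U, dl (v i) (v' i) := by
  have hK : DepOn U fun v' : ∀ i, V i => ∏ i ∈ U, dl (v i) (v' i) :=
    fun x y hxy => Finset.prod_congr rfl fun i hi => by rw [hxy i hi]
  have hA : DepOn U (avg Uᶜ h) := by simpa using depOn_avg Uᶜ h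
  have h1 : 𝔼 v' : ∀ i, V i, ∏ i ∈ U, dl (v i) (v' i) = 1 := by
    simp only [← Finset.prod_ite_mem_eq U]
    rw [expect_prod fun i t => if i ∈ U then dl (v i) t else 1]
    refine Finset.prod_eq_one fun i _ => ?_
    split_ifs
    · simpa using expect_mul_dl (fun _ => 1) (v i)
    · simp
  rw [← expect_avg Uᶜ fun v' => h v' * ∏ i ∈ U, dl (v i) (v' i),
    avg_mul_right hK disjoint_compl_right, ← mul_one (avg Uᶜ h v), ← h1, Finset.mul_expect]
  refine Finset.expect_congr rfl fun v' _ => ?_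
  by_cases hv : ∀ i ∈ U, v i = v' i
  · rw [hA v v' hv]
  · push Not at hv
    obtain ⟨i, hi, hne⟩ := hv
    rw [Finset.prod_eq_zero hi (by simp [dl, hne.symm]), mul_zero, mul_zero]

/-- the kernel of an Efron–Stein part -/
lemma es_kernel (T : Finset ι) (h : (∀ i, V i) → ℝ) (v : ∀ i, V i) :
    es T h v = 𝔼 v', h v' * ∏ i ∈ T, (dl (v i) (v' i) - 1) := by
  simp only [sub_eq_add_neg, Finset.prod_add, Finset.prod_const, Finset.mul_sum, es, avg_kernel]
  rw [Finset.expect_sum_comm]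
  refine Finset.sum_congr rfl fun U _ => ?_
  rw [Finset.mul_expect]
  exact Finset.expect_congr rfl fun v' _ => by ring

/-- the quadratic form of the squared noise operator -/
lemma noise_form (c : ι → ℝ) (h : (∀ i, V i) → ℝ) :
    𝔼 v, 𝔼 v', h v * h v' * ∏ i, (1 + c i * (dl (v i) (v' i) - 1)) =
      ∑ T : Finset ι, (∏ i ∈ T, c i) * 𝔼 v, es T h v ^ 2 := by
  have h1 : ∀ v : ∀ i, V i, 𝔼 v', h v * h v' * ∏ i, (1 + c i * (dl (v i) (v' i) - 1)) =
      ∑ T : Finset ι, (∏ i ∈ T, c i) * (h v * es T h v) := fun v => by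
    simp only [Finset.prod_one_add, Finset.powerset_univ, Finset.prod_mul_distrib, Finset.mul_sum,
      es_kernel]
    rw [Finset.expect_sum_comm]
    refine Finset.sum_congr rfl fun T _ => ?_
    rw [Finset.mul_expect, Finset.mul_expect]
    exact Finset.expect_congr rfl fun v' _ => by ring
  simp only [h1]
  rw [Finset.expect_sum_comm]
  refine Finset.sum_congr rfl fun T _ => ?_
  rw [← Finset.mul_expect]
  congr 1
  have h2 := expect_mul_es T h (es T h)
  rw [es_es, if_pos rfl] at h2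
  simp only [h2, sq]

end Kernel

section Local
variable {W : Type} [Fintype W] [Nonempty W]

/-- the kernel of the squared noise operator at one coordinate -/
noncomputable def qk (c : ℝ) (s t : W) : ℝ := (1 + c * (dl s t - 1)) / (Fintype.card W : ℝ) ^ 2

omit [Nonempty W] in
lemma sum_sum_div (φ : W → W → ℝ) :
    ∑ s, ∑ t, φ s t / (Fintype.card W : ℝ) ^ 2 = 𝔼 s, 𝔼 t, φ s t := by
  simp only [Fintype.expect_eq_sum_div_card, Finset.sum_div, div_div, sq]

lemma qk_form (c : ℝ) (g : W → ℝ) :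
    ∑ s, ∑ t, g s * g t * qk c s t = (𝔼 s, g s) ^ 2 + c * 𝔼 s, (g s - 𝔼 t, g t) ^ 2 := by
  simp only [qk, ← mul_div_assoc, sum_sum_div]
  have h1 : ∀ s, 𝔼 t, g s * g t * (1 + c * (dl s t - 1)) =
      (1 - c) * (𝔼 t, g t) * g s + c * g s ^ 2 := fun s => by
    have : ∀ t, g s * g t * (1 + c * (dl s t - 1)) =
        (1 - c) * g s * g t + c * g s * (g t * dl s t) := fun t => by ring
    simp only [this, Finset.expect_add_distrib, ← Finset.mul_expect, expect_mul_dl]
    ring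
  have h2 : ∀ s, (g s - 𝔼 t, g t) ^ 2 = g s ^ 2 - 2 * (𝔼 t, g t) * g s + (𝔼 t, g t) ^ 2 :=
    fun s => by ring
  simp only [h1, h2, Finset.expect_add_distrib, Finset.expect_sub_distrib, ← Finset.mul_expect,
    Fintype.expect_const]
  ring

end Local

lemma law_blk {D : ℕ} {W : Type} [AddCommGroup W] [Fintype W] {ν : (Om D → W) → ℝ} {ρ : ℝ}
    (h : Law ν ρ) (ω : Om D) (g : W → ℝ) (G : (Om D → W) → ℝ) :
    0 ≤ blk (qk (ρ ^ 2)) (pk ν (fun x => x ω) fun x => Function.update x ω 0)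
      (pk ν (fun x => Function.update x ω 0) fun x => Function.update x ω 0) g G := by
  unfold blk
  rw [qk_form, sum_pk, sum_pk]
  set m := 𝔼 s, g s with hm
  set μ := ∑ x, ν x * G (Function.update x ω 0) with hμ
  have h0 : ∑ v, (g v - m) = 0 := by
    have hc : (Fintype.card W : ℝ) ≠ 0 := by exact_mod_cast Fintype.card_ne_zero
    rw [Finset.sum_sub_distrib, Finset.sum_const, hm, Fintype.expect_eq_sum_div_card,
      Finset.card_univ, nsmul_eq_mul, mul_div_cancel₀ _ hc, sub_self]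
  have h1 := h.maxcorr ω (fun v => g v - m) (fun x => G (Function.update x ω 0) - μ) h0
    fun x v => by simp
  have h2 : ∑ x, ν x * g (x ω) = m := by rw [Local.marginal h.transl, h.sum_one, one_mul]
  have h3 : ∑ x, ν x * ((g (x ω) - m) * (G (Function.update x ω 0) - μ)) =
      ∑ x, ν x * (g (x ω) * G (Function.update x ω 0)) - m * μ := by
    have : ∀ x, ν x * ((g (x ω) - m) * (G (Function.update x ω 0) - μ)) =
        ν x * (g (x ω) * G (Function.update x ω 0)) - μ * (ν x * g (x ω)) -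
          m * (ν x * G (Function.update x ω 0)) + m * μ * ν x := fun x => by ring
    simp only [this, Finset.sum_add_distrib, Finset.sum_sub_distrib, ← Finset.mul_sum, h2, ← hμ,
      h.sum_one]
    ring
  have h4 : ∑ x, ν x * (G (Function.update x ω 0) - μ) ^ 2 =
      ∑ x, ν x * (G (Function.update x ω 0) * G (Function.update x ω 0)) - μ ^ 2 := by
    have : ∀ x, ν x * (G (Function.update x ω 0) - μ) ^ 2 =
        ν x * (G (Function.update x ω 0) * G (Function.update x ω 0)) -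
          2 * μ * (ν x * G (Function.update x ω 0)) + μ ^ 2 * ν x := fun x => by ring
    simp only [this, Finset.sum_add_distrib, Finset.sum_sub_distrib, ← Finset.mul_sum, ← hμ,
      h.sum_one]
    ring
  have h5 : 0 ≤ ∑ x, ν x * (G (Function.update x ω 0) - μ) ^ 2 :=
    Finset.sum_nonneg fun x _ => mul_nonneg (h.nonneg x) (sq_nonneg _)
  have h6 : 0 ≤ ρ ^ 2 * 𝔼 s, (g s - m) ^ 2 :=
    mul_nonneg (sq_nonneg _) (Finset.expect_nonneg fun _ _ => sq_nonneg _)
  rw [h3] at h1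
  rw [h4] at h1 h5
  generalize ρ ^ 2 * 𝔼 s, (g s - m) ^ 2 = a at h1 h6 ⊢
  generalize ∑ x, ν x * (g (x ω) * G (Function.update x ω 0)) = b at h1 ⊢
  generalize ∑ x, ν x * (G (Function.update x ω 0) * G (Function.update x ω 0)) = c at h1 h5 ⊢
  have h7 : (2 * (b - m * μ)) ^ 2 ≤ (a + (c - μ ^ 2)) ^ 2 := by
    nlinarith [sq_nonneg (a - (c - μ ^ 2))]
  have h8 := (abs_le_of_sq_le_sq' h7 (by linarith)).1
  nlinarith [sq_nonneg (m + μ)]

/-- **tensorised maximal correlation** -/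
theorem tens_maxcorr {D : ℕ} {ι : Type} [Fintype ι] [DecidableEq ι] {V : ι → Type}
    [∀ i, AddCommGroup (V i)] [∀ i, Fintype (V i)] {ν : ∀ i, (Om D → V i) → ℝ} {ρ : ι → ℝ}
    (h : ∀ i, Law (ν i) (ρ i)) (ω : Om D) (g : (∀ i, V i) → ℝ) (G : (Om D → ∀ i, V i) → ℝ)
    (hG : ∀ x v, G (Function.update x ω v) = G x) :
    (∑ x, tens ν x * (g (x ω) * G x)) ^ 2 ≤
      (∑ T : Finset ι, (∏ i ∈ T, ρ i ^ 2) * 𝔼 v, es T g v ^ 2) * ∑ x, tens ν x * G x ^ 2 := by
  have hR : ∀ x : Om D → ∀ i, V i,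
      G (fun c i => Function.update (fun c => x c i) ω 0 c) = G x := fun x => by
    rw [← hG x 0]
    congr 1
    funext c i
    by_cases hc : c = ω
    · subst hc; simp
    · simp [hc]
  have key : ∀ t : ℝ, 0 ≤ (∑ T : Finset ι, (∏ i ∈ T, ρ i ^ 2) * 𝔼 v, es T g v ^ 2) * (t * t) +
      2 * (∑ x, tens ν x * (g (x ω) * G x)) * t + ∑ x, tens ν x * G x ^ 2 := fun t => by
    have h1 := blk_tensor (fun i => qk (ρ i ^ 2))
      (fun i => pk (ν i) (fun x => x ω) fun x => Function.update x ω 0)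
      (fun i => pk (ν i) (fun x => Function.update x ω 0) fun x => Function.update x ω 0)
      (fun i u u' => by simp only [qk, dl_symm u]) (fun i => pk_symm _ _)
      (fun i => law_blk (h i) ω) (fun v => t * g v) fun y => G fun c i => y i c
    unfold blk at h1
    simp only [pk_tens, sum_pk, hR] at h1
    simp only [qk, Finset.prod_div_distrib, Finset.prod_pow, ← Nat.cast_prod, ← Fintype.card_pi,
      ← mul_div_assoc, sum_sum_div, noise_form, es_smul, mul_pow, ← Finset.mul_expect] at h1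
    convert h1 using 2
    · congr 1
      · rw [Finset.sum_mul]
        exact Finset.sum_congr rfl fun T _ => by rw [Finset.prod_pow]; ring
      · rw [mul_assoc, Finset.sum_mul]
        exact congrArg _ (Finset.sum_congr rfl fun x _ => by ring)
    · exact Finset.sum_congr rfl fun x _ => by ring
  have := discrim_le_zero key
  rw [discrim] at this
  nlinarith

/-- **Module B4** -/
theorem tail : TailStmt := by
  intro D ι _ _ V _ _ ν ρ _ h ω₀ g f F η B hg hη hF hB hm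
  have hr : 1 ≤ 6 ^ D := Nat.one_le_pow _ _ (by norm_num)
  have h1 := tens_maxcorr h ω₀ (g ω₀) (fun x => ∏ c ∈ univ.erase ω₀, g c (x c)) fun x v =>
    Finset.prod_congr rfl fun c hc => by rw [Function.update_of_ne (Finset.ne_of_mem_erase hc)]
  rw [← Local.Lam_eq_slot] at h1
  have h2 : 𝔼 v, g ω₀ v ^ 2 ≤ B := by
    have h3 : ∀ v, 1 + ((6 ^ D : ℕ) : ℝ) * (g ω₀ v ^ 2 - 1) ≤ g ω₀ v ^ (2 * 6 ^ D) := fun v => by
      rw [pow_mul]
      exact one_add_mul_sub_le_pow (by nlinarith [sq_nonneg (g ω₀ v)]) _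
    have h4 := (Finset.expect_le_expect (s := univ) fun v _ => h3 v).trans (hm ω₀)
    simp only [Finset.expect_add_distrib, Finset.expect_sub_distrib, ← Finset.mul_expect,
      Fintype.expect_const] at h4
    have h5 : (1 : ℝ) ≤ ((6 ^ D : ℕ) : ℝ) := by exact_mod_cast hr
    by_contra hc
    push Not at hc
    nlinarith
  have h3 : ∑ T : Finset ι, (∏ i ∈ T, ρ i ^ 2) * 𝔼 v, es T (g ω₀) v ^ 2 ≤ η ^ 2 * B := by
    refine le_trans ?_ (mul_le_mul_of_nonneg_left h2 (sq_nonneg η))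
    rw [parseval (g ω₀), Finset.mul_sum]
    refine Finset.sum_le_sum fun T _ => ?_
    by_cases hT : T ∈ F
    · exact mul_le_mul_of_nonneg_right (hF T hT) (expect_sq_nonneg _)
    · simp [hg, es_proj, hT]
  have h4 : ∑ x, tens ν x * (∏ c ∈ univ.erase ω₀, g c (x c)) ^ 2 ≤ B := by
    have h5 := Local.tens_abs_Lam_le h (Function.update (fun c v => g c v ^ 2) ω₀ fun _ => 1)
      (B := B) fun c => by
        by_cases hc : c = ω₀
        · subst hc; simpa using hB
        · simpa [Function.update_of_ne hc, ← pow_mul] using hm c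
    refine le_trans (le_of_eq ?_) (le_of_abs_le h5)
    rw [Local.Lam_eq_slot _ _ ω₀]
    refine Finset.sum_congr rfl fun x _ => ?_
    rw [Function.update_self, one_mul, ← Finset.prod_pow]
    exact congrArg _ (Finset.prod_congr rfl fun c hc => by
      rw [Function.update_of_ne (Finset.ne_of_mem_erase hc)])
  refine abs_le_of_sq_le_sq' (h1.trans ?_) (by positivity) |> abs_le.2
  calc _ ≤ (η ^ 2 * B) * B := mul_le_mul h3 h4 (Finset.sum_nonneg fun x _ =>
        mul_nonneg (Local.tens_nonneg h x) (sq_nonneg _)) (by positivity)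
    _ = (η * B) ^ 2 := by ring

end Crest.Agent.N41.ES
end

-- ▼ part N41/Step/NFConv
section

/-!
# Row 41, module B5b: the bilinear form of a convolution kernel on the product group
-/

set_option autoImplicit false

namespace Crest.Agent.N41.Step.NF

open Finset
open scoped BigOperators
open ES (avg es proj res qq DepOn)

variable {ι : Type} [Fintype ι] [DecidableEq ι] {V : ι → Type} [∀ i, AddCommGroup (V i)]
  [∀ i, Fintype (V i)]

/-- the bilinear form of the kernel `k (y - x)` -/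
noncomputable def Bk (k u v : (∀ i, V i) → ℝ) : ℝ := 𝔼 x, 𝔼 y, u x * v y * k (y - x)

lemma expect_shift (y : ∀ i, V i) (φ : (∀ i, V i) → ℝ) : 𝔼 x, φ (y - x) = 𝔼 x, φ x :=
  Fintype.expect_equiv (Equiv.subLeft y) _ _ fun _ => rfl

lemma expect_shift' (x : ∀ i, V i) (φ : (∀ i, V i) → ℝ) : 𝔼 y, φ (y - x) = 𝔼 y, φ y :=
  Fintype.expect_equiv (Equiv.subRight x) _ _ fun _ => rfl

lemma avg_sub_left (S : Finset ι) (k : (∀ i, V i) → ℝ) (y : ∀ i, V i) :
    avg S (fun x => k (y - x)) = fun x => avg S k (y - x) := by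
  funext x
  unfold avg
  rw [← expect_shift y fun z => k (S.piecewise z (y - x))]
  refine expect_congr rfl fun z _ => congrArg k ?_
  funext i
  by_cases h : i ∈ S <;> simp [Finset.piecewise, h]

lemma avg_sub_right (S : Finset ι) (k : (∀ i, V i) → ℝ) (x : ∀ i, V i) :
    avg S (fun y => k (y - x)) = fun y => avg S k (y - x) := by
  funext y
  unfold avg
  rw [← expect_shift' x fun z => k (S.piecewise z (y - x))]
  refine expect_congr rfl fun z _ => congrArg k ?_
  funext i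
  by_cases h : i ∈ S <;> simp [Finset.piecewise, h]

lemma proj_sub_left (F : Finset (Finset ι)) (k : (∀ i, V i) → ℝ) (y : ∀ i, V i) :
    proj F (fun x => k (y - x)) = fun x => proj F k (y - x) := by
  funext x; simp only [proj, es, avg_sub_left]

lemma proj_sub_right (F : Finset (Finset ι)) (k : (∀ i, V i) → ℝ) (x : ∀ i, V i) :
    proj F (fun y => k (y - x)) = fun y => proj F k (y - x) := by
  funext y; simp only [proj, es, avg_sub_right]

lemma Bk_proj_left (F : Finset (Finset ι)) (k u v : (∀ i, V i) → ℝ) :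
    Bk (proj F k) u v = Bk k (proj F u) v := by
  unfold Bk
  rw [expect_comm, expect_comm univ univ fun x y => proj F u x * v y * k (y - x)]
  refine expect_congr rfl fun y _ => ?_
  have h := ES.expect_mul_proj F u fun x => k (y - x)
  rw [proj_sub_left] at h
  simp only [mul_right_comm _ (v y), ← expect_mul, h]

lemma Bk_proj_right (F : Finset (Finset ι)) (k u v : (∀ i, V i) → ℝ) :
    Bk (proj F k) u v = Bk k u (proj F v) := by
  unfold Bk
  refine expect_congr rfl fun x _ => ?_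
  have h := ES.expect_mul_proj F v fun y => k (y - x)
  rw [proj_sub_right] at h
  simp only [mul_assoc, ← mul_expect, h]

lemma Bk_proj_both (F : Finset (Finset ι)) (k u v : (∀ i, V i) → ℝ) :
    Bk (proj F k) u v = Bk k (proj F u) (proj F v) := by
  conv_lhs => rw [← inter_self F, ← ES.proj_proj, Bk_proj_left, Bk_proj_right]

lemma Bk_proj_sum (F : Finset (Finset ι)) (k u v : (∀ i, V i) → ℝ) :
    Bk (proj F k) u v = ∑ T ∈ F, Bk k (es T u) (es T v) := by
  have h1 : Bk (proj F k) u v = ∑ T ∈ F, Bk (proj {T} k) u v := by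
    simp only [Bk, proj, sum_singleton, mul_sum, expect_sum_comm]
  rw [h1]
  refine sum_congr rfl fun T _ => ?_
  rw [Bk_proj_both]
  congr 1 <;> funext x <;> simp [proj]

lemma Bk_split (F : Finset (Finset ι)) (k u v : (∀ i, V i) → ℝ) :
    Bk k u v = Bk (proj F k) u v + Bk (proj Fᶜ k) u v := by
  unfold Bk
  rw [← expect_add_distrib]
  refine expect_congr rfl fun x _ => ?_
  rw [← expect_add_distrib]
  refine expect_congr rfl fun y _ => ?_
  rw [← mul_add, proj, proj, sum_add_sum_compl, ES.sum_es]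

/-! ### one coordinate -/

section One
variable {W : Type} [AddCommGroup W] [Fintype W]

lemma conv_sq_le_of_opBd {κ : W → ℝ} {ρ : ℝ} (h : OpBd κ ρ) (u : W → ℝ) (hu : ∑ s, u s = 0) :
    𝔼 t, (𝔼 s, u s * κ (t - s)) ^ 2 ≤ ρ ^ 2 * 𝔼 s, u s ^ 2 := by
  set c : W → ℝ := fun t => 𝔼 s, u s * κ (t - s) with hc
  have h1 := h u c hu
  have h2 : 𝔼 s, 𝔼 t, u s * c t * κ (t - s) = 𝔼 t, c t ^ 2 := by
    rw [expect_comm]
    refine expect_congr rfl fun t _ => ?_
    simp only [mul_right_comm _ (c t), ← expect_mul, sq]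
    rfl
  rw [h2] at h1
  have h3 : 0 ≤ 𝔼 t, c t ^ 2 := expect_nonneg fun _ _ => sq_nonneg _
  have h4 : 0 ≤ ρ ^ 2 * 𝔼 s, u s ^ 2 :=
    mul_nonneg (sq_nonneg _) (expect_nonneg fun _ _ => sq_nonneg _)
  rcases h3.eq_or_lt with h0 | h0
  · rw [← h0]; exact h4
  · exact le_of_mul_le_mul_right (by rw [← sq]; exact h1) h0

lemma conv_sq_le {κ : W → ℝ} (h0 : ∀ t, 0 ≤ κ t) (h1 : 𝔼 t, κ t = 1) (u : W → ℝ) :
    𝔼 t, (𝔼 s, u s * κ (t - s)) ^ 2 ≤ 𝔼 s, u s ^ 2 := by
  have ha : ∀ t, 𝔼 s, κ (t - s) = 1 := fun t => by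
    rw [← h1]; exact Fintype.expect_equiv (Equiv.subLeft t) _ _ fun _ => rfl
  have hb : ∀ s, 𝔼 t, κ (t - s) = 1 := fun s => by
    rw [← h1]; exact Fintype.expect_equiv (Equiv.subRight s) _ _ fun _ => rfl
  have hc : ∀ t, (𝔼 s, u s * κ (t - s)) ^ 2 ≤ 𝔼 s, u s ^ 2 * κ (t - s) := fun t => by
    have := expect_mul_sq_le_sq_mul_sq univ (fun s => u s * √(κ (t - s))) fun s => √(κ (t - s))
    simp only [mul_assoc, Real.mul_self_sqrt (h0 _), mul_pow, Real.sq_sqrt (h0 _), ha,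
      mul_one] at this
    exact this
  calc _ ≤ 𝔼 t, 𝔼 s, u s ^ 2 * κ (t - s) := expect_le_expect fun t _ => hc t
    _ = 𝔼 s, u s ^ 2 := by
      rw [expect_comm]; simp only [← mul_expect, hb, mul_one]

end One

/-! ### the tensorised operator bound -/

omit [∀ i, AddCommGroup (V i)] in
lemma expect_coord [∀ i, Nonempty (V i)] (i : ι) (φ : V i → ℝ) :
    𝔼 x : ∀ j, V j, φ (x i) = 𝔼 s, φ s := by
  have h := ES.expect_prod (V := V) (Function.update (fun _ _ => (1 : ℝ)) i φ)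
  rw [← mul_prod_erase univ _ (mem_univ i), Function.update_self,
    prod_eq_one fun j hj => by simp [Function.update_of_ne (ne_of_mem_erase hj)], mul_one] at h
  rw [← h]
  refine expect_congr rfl fun x _ => ?_
  rw [← mul_prod_erase univ _ (mem_univ i), Function.update_self,
    prod_eq_one fun j hj => by simp [Function.update_of_ne (ne_of_mem_erase hj)], mul_one]

omit [∀ i, AddCommGroup (V i)] [Fintype ι] [∀ i, Fintype (V i)] in
lemma pw_single (i : ι) (x y : ∀ j, V j) :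
    ({i} : Finset ι).piecewise x y = Function.update y i (x i) := by
  funext j
  by_cases h : j = i
  · subst h; simp
  · simp [Finset.piecewise, h]

omit [∀ i, AddCommGroup (V i)] in
lemma avg_single [∀ i, Nonempty (V i)] (i : ι) (f : (∀ j, V j) → ℝ) (y : ∀ j, V j) :
    avg {i} f y = 𝔼 s, f (Function.update y i s) := by
  unfold avg
  simp only [pw_single]
  exact expect_coord i fun s => f (Function.update y i s)

omit [∀ i, AddCommGroup (V i)] in
lemma expect_upd [∀ i, Nonempty (V i)] (i : ι) (f : (∀ j, V j) → ℝ) :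
    𝔼 y, f y = 𝔼 y, 𝔼 s, f (Function.update y i s) := by
  rw [← ES.expect_avg {i} f]; simp only [avg_single]

/-- convolution in the coordinates of `S` -/
noncomputable def cv (κ : ∀ i, V i → ℝ) (S : Finset ι) (u : (∀ i, V i) → ℝ) (y : ∀ i, V i) : ℝ :=
  𝔼 x, u (S.piecewise x y) * ∏ i ∈ S, κ i (y i - x i)

lemma cv_empty (κ : ∀ i, V i → ℝ) (u : (∀ i, V i) → ℝ) : cv κ ∅ u = u := by
  funext y; simp [cv]

lemma cv_insert (κ : ∀ i, V i → ℝ) {S : Finset ι} {i : ι} (hi : i ∉ S) (u : (∀ i, V i) → ℝ)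
    (y : ∀ i, V i) :
    cv κ (insert i S) u y = 𝔼 s, cv κ S u (Function.update y i s) * κ i (y i - s) := by
  unfold cv
  rw [expect_upd i, expect_comm]
  refine expect_congr rfl fun s _ => ?_
  rw [expect_mul]
  refine expect_congr rfl fun x _ => ?_
  rw [prod_insert hi, Function.update_self]
  have h1 : (insert i S).piecewise (Function.update x i s) y =
      S.piecewise x (Function.update y i s) := by
    funext j
    by_cases hj : j = i
    · subst hj; simp [Finset.piecewise, hi]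
    · by_cases hS : j ∈ S <;> simp [Finset.piecewise, hj, hS]
  have h2 : ∏ j ∈ S, κ j (y j - Function.update x i s j) =
      ∏ j ∈ S, κ j (Function.update y i s j - x j) :=
    prod_congr rfl fun j hj => by
      have : j ≠ i := fun h => hi (h ▸ hj)
      rw [Function.update_of_ne this, Function.update_of_ne this]
  rw [h1, h2]; ring

lemma cv_mean_zero (κ : ∀ i, V i → ℝ) {S : Finset ι} {i : ι} (hi : i ∉ S) {u : (∀ i, V i) → ℝ}
    (hu : avg {i} u = fun _ => 0) (y : ∀ i, V i) :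
    ∑ s, cv κ S u (Function.update y i s) = 0 := by
  have h : 𝔼 s, cv κ S u (Function.update y i s) = 0 := by
    unfold cv
    rw [expect_comm]
    refine expect_eq_zero fun x _ => ?_
    have h1 : ∀ s, S.piecewise x (Function.update y i s) =
        Function.update (S.piecewise x y) i s := fun s => by
      funext j
      by_cases hj : j = i
      · subst hj; simp [Finset.piecewise, hi]
      · by_cases hS : j ∈ S <;> simp [Finset.piecewise, hj, hS]
    have h2 : ∀ s, ∏ j ∈ S, κ j (Function.update y i s j - x j) = ∏ j ∈ S, κ j (y j - x j) :=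
      fun s => prod_congr rfl fun j hj => by
        have : j ≠ i := fun h => hi (h ▸ hj)
        rw [Function.update_of_ne this]
    simp only [h1, h2, ← expect_mul, ← avg_single, hu, zero_mul]
  rw [Fintype.expect_eq_sum_div_card, div_eq_zero_iff] at h
  exact h.resolve_right (by positivity)

lemma cv_sq_le {κ : ∀ i, V i → ℝ} {ρ : ι → ℝ} (h0 : ∀ i t, 0 ≤ κ i t) (h1 : ∀ i, 𝔼 t, κ i t = 1)
    (hop : ∀ i, OpBd (κ i) (ρ i)) (T : Finset ι) {u : (∀ i, V i) → ℝ}
    (hu : ∀ i ∈ T, avg {i} u = fun _ => 0) (S : Finset ι) :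
    𝔼 y, cv κ S u y ^ 2 ≤ (∏ i ∈ S, if i ∈ T then ρ i ^ 2 else 1) * 𝔼 y, u y ^ 2 := by
  induction S using Finset.induction_on with
  | empty => simp [cv_empty]
  | insert i S hi ih =>
    have hc : 0 ≤ (if i ∈ T then ρ i ^ 2 else 1) := by split_ifs <;> positivity
    rw [prod_insert hi, mul_assoc]
    refine le_trans ?_ (mul_le_mul_of_nonneg_left ih hc)
    rw [expect_upd i, expect_upd i fun y => cv κ S u y ^ 2, mul_expect]
    refine expect_le_expect fun y _ => ?_
    simp only [cv_insert κ hi, Function.update_idem, Function.update_self]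
    split_ifs with hT
    · exact conv_sq_le_of_opBd (hop i) _ (cv_mean_zero κ hi (hu i hT) y)
    · rw [one_mul]; exact conv_sq_le (h0 i) (h1 i) _

lemma Bk_es_sq_le {κ : ∀ i, V i → ℝ} {ρ : ι → ℝ} (h0 : ∀ i t, 0 ≤ κ i t)
    (h1 : ∀ i, 𝔼 t, κ i t = 1) (hop : ∀ i, OpBd (κ i) (ρ i)) (T : Finset ι)
    (u v : (∀ i, V i) → ℝ) :
    Bk (fun z => ∏ i, κ i (z i)) (es T u) v ^ 2 ≤
      (∏ i ∈ T, ρ i ^ 2) * (𝔼 y, es T u y ^ 2) * 𝔼 y, v y ^ 2 := by
  have h2 := cv_sq_le h0 h1 hop T (u := es T u) (fun i hi => ES.avg_single_es hi u) univ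
  rw [prod_ite_mem, univ_inter] at h2
  have h3 : Bk (fun z => ∏ i, κ i (z i)) (es T u) v = 𝔼 y, cv κ univ (es T u) y * v y := by
    unfold Bk cv
    rw [expect_comm]
    refine expect_congr rfl fun y _ => ?_
    rw [expect_mul]
    refine expect_congr rfl fun x _ => ?_
    rw [piecewise_univ]
    simp only [Pi.sub_apply]; ring
  rw [h3]
  exact (expect_mul_sq_le_sq_mul_sq univ _ _).trans
    (mul_le_mul_of_nonneg_right h2 (ES.expect_sq_nonneg v))

/-- the high part of the product kernel is small -/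
lemma abs_Bk_proj_le {κ : ∀ i, V i → ℝ} {ρ : ι → ℝ} (h0 : ∀ i t, 0 ≤ κ i t)
    (h1 : ∀ i, 𝔼 t, κ i t = 1) (hop : ∀ i, OpBd (κ i) (ρ i)) (F : Finset (Finset ι)) {η : ℝ}
    (hη : 0 ≤ η) (hF : ∀ T ∈ F, ∏ i ∈ T, ρ i ^ 2 ≤ η ^ 2) (u v : (∀ i, V i) → ℝ) :
    |Bk (proj F fun z => ∏ i, κ i (z i)) u v| ≤ η * ((𝔼 y, u y ^ 2) + 𝔼 y, v y ^ 2) / 2 := by
  rw [Bk_proj_sum]
  have h2 : ∀ T ∈ F, |Bk (fun z => ∏ i, κ i (z i)) (es T u) (es T v)| ≤
      η * ((𝔼 y, es T u y ^ 2) + 𝔼 y, es T v y ^ 2) / 2 := fun T hT => by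
    have ha := ES.expect_sq_nonneg (es T u)
    have hb := ES.expect_sq_nonneg (es T v)
    refine abs_le_of_sq_le_sq' ?_ (by positivity) |> abs_le.2
    refine (Bk_es_sq_le h0 h1 hop T u (es T v)).trans ?_
    have h3 := mul_le_mul_of_nonneg_right (hF T hT) (mul_nonneg ha hb)
    nlinarith [mul_nonneg (sq_nonneg η) (sq_nonneg ((𝔼 y, es T u y ^ 2) - 𝔼 y, es T v y ^ 2))]
  refine (abs_sum_le_sum_abs _ _).trans ((sum_le_sum h2).trans ?_)
  rw [← sum_div, ← mul_sum, sum_add_distrib, ← ES.parseval_proj, ← ES.parseval_proj]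
  have := ES.expect_sq_proj_le F u
  have := ES.expect_sq_proj_le F v
  gcongr

end Crest.Agent.N41.Step.NF
end

-- ▼ part N41/Step/NF
section

/-!
# Row 41, module B5b: the term of the product of the parts `nf`
-/

set_option autoImplicit false

namespace Crest.Agent.N41.Step

open Finset
open scoped BigOperators
open Local (Om ptA ptB tens)
open ES (avg es proj res qq DepOn)

namespace NF

section Pair

variable {D : ℕ} {ι : Type} [Fintype ι] [DecidableEq ι] {V : ι → Type} [∀ i, AddCommGroup (V i)]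
  [∀ i, Fintype (V i)] [∀ i, DecidableEq (V i)]

/-- the pair law of the product weight -/
lemma pair_tens {nf : ∀ i, (Om D → V i) → ℝ} {κ : ∀ i, V i → ℝ} {m : ι → ℝ} {a b : Om D}
    (h : ∀ i (u v : V i → ℝ),
      ∑ x, nf i x * (u (x a) * v (x b)) = m i * 𝔼 s, 𝔼 t, u s * v t * κ i (t - s))
    (u v : (∀ i, V i) → ℝ) :
    ∑ x, tens nf x * (u (x a) * v (x b)) = (∏ i, m i) * Bk (fun z => ∏ i, κ i (z i)) u v := by
  have hd : ∀ (s y : ∀ i, V i), (if y = s then (1 : ℝ) else 0) = ∏ i, if y i = s i then 1 else 0 :=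
    fun s y => by
      rw [prod_boole]; simp [funext_iff]
  have h1 : ∀ x : Om D → ∀ i, V i, tens nf x * (u (x a) * v (x b)) = ∑ s, ∑ t, u s * v t *
      ∏ i, nf i (fun c => x c i) *
        ((if x a i = s i then 1 else 0) * if x b i = t i then 1 else 0) := fun x => by
    simp only [prod_mul_distrib, ← hd]
    simp only [mul_ite, mul_one, mul_zero]
    rw [sum_eq_single (x a) (fun s _ hs => by simp [hs.symm]) (by simp),
      sum_eq_single (x b) (fun s _ hs => by simp [hs.symm]) (by simp)]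
    simp [tens]; ring
  have h2 : ∀ (i : ι) (s t : V i), ∑ y : Om D → V i, nf i y *
      ((if y a = s then 1 else 0) * if y b = t then 1 else 0) =
      m i * (κ i (t - s) / (Fintype.card (V i) : ℝ) ^ 2) := fun i s t => by
    rw [h i (fun z => if z = s then 1 else 0) fun z => if z = t then 1 else 0]
    congr 1
    simp only [Fintype.expect_eq_sum_div_card, mul_ite, mul_one, mul_zero, ite_mul, zero_mul,
      one_mul, sum_ite_eq', mem_univ, if_true]
    rw [← sum_div]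
    simp only [sum_ite_eq', mem_univ, if_true]
    rw [div_div, sq]
  simp only [h1]
  rw [sum_comm]
  unfold Bk
  simp only [Fintype.expect_eq_sum_div_card, sum_div, mul_sum]
  refine sum_congr rfl fun s _ => ?_
  rw [sum_comm]
  refine sum_congr rfl fun t _ => ?_
  rw [← mul_sum, Local.sum_tens_prod fun i y => nf i y *
    ((if y a = s i then 1 else 0) * if y b = t i then 1 else 0)]
  simp only [h2, prod_mul_distrib, prod_div_distrib, Fintype.card_pi, Nat.cast_prod, prod_pow,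
    Pi.sub_apply]
  ring

omit [∀ i, AddCommGroup (V i)] [∀ i, DecidableEq (V i)] in
/-- independence of disjoint blocks of coordinates under a product weight -/
lemma indep_tens (nf : ∀ i, (Om D → V i) → ℝ) (T : Finset ι) (A C : (Om D → ∀ i, V i) → ℝ)
    (hA : ∀ x y : Om D → ∀ i, V i, A (fun c => T.piecewise (x c) (y c)) = A x)
    (hC : ∀ x y : Om D → ∀ i, V i, C (fun c => T.piecewise (x c) (y c)) = C y) :
    (∑ x, tens nf x * (A x * C x)) * ∑ x, tens nf x =
      (∑ x, tens nf x * A x) * ∑ x, tens nf x * C x := by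
  rw [sum_mul_sum, sum_mul_sum, ← sum_product', ← sum_product', univ_product_univ]
  have hinv : Function.Involutive fun p : (Om D → ∀ i, V i) × (Om D → ∀ i, V i) =>
      ((fun c => T.piecewise (p.1 c) (p.2 c)), fun c => T.piecewise (p.2 c) (p.1 c)) := by
    intro p
    simp only [ES.pw_pw]
  symm
  refine Fintype.sum_equiv hinv.toPerm _ _ fun p => ?_
  simp only [Function.Involutive.coe_toPerm, hA, hC]
  have : tens nf (fun c => T.piecewise (p.1 c) (p.2 c)) *
      tens nf (fun c => T.piecewise (p.2 c) (p.1 c)) = tens nf p.1 * tens nf p.2 := by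
    unfold tens
    rw [← prod_mul_distrib, ← prod_mul_distrib]
    refine prod_congr rfl fun i _ => ?_
    by_cases hi : i ∈ T
    · simp [Finset.piecewise, hi]
    · simp [Finset.piecewise, hi, mul_comm]
  linear_combination (-(A p.1 * C p.2)) * this

omit [∀ i, AddCommGroup (V i)] [∀ i, Fintype (V i)] in
lemma mul_ind (T : Finset ι) (s x : ∀ i, V i) (u : (∀ i, V i) → ℝ) :
    u x * ind T s x = res T s u x * ind T s x := by
  unfold ind res
  split_ifs with h
  · congr 2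
    funext i
    by_cases hi : i ∈ T
    · simp [Finset.piecewise, hi, h i hi]
    · simp [Finset.piecewise, hi]
  · simp

/-- one fibre -/
lemma fibre_le {nf : ∀ i, (Om D → V i) → ℝ} (h0 : ∀ i x, 0 ≤ nf i x) {a b : Om D} (T : Finset ι)
    (sa sb : ∀ i, V i) (u v : (∀ i, V i) → ℝ) {H : (Om D → ∀ i, V i) → ℝ} {B : ℝ}
    (hH : ∀ x y : Om D → ∀ i, V i, H (fun c => T.piecewise (x c) (y c)) = H x)
    (hB : ∀ x, |H x| ≤ B) :
    |∑ x, tens nf x * ((u (x a) * ind T sa (x a)) * (v (x b) * ind T sb (x b)) * H x)| ≤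
      B * |∑ x, tens nf x * ((u (x a) * ind T sa (x a)) * (v (x b) * ind T sb (x b)))| := by
  have hN : ∀ x, 0 ≤ tens nf x := fun x => prod_nonneg fun i _ => h0 i _
  have hB0 : 0 ≤ B := (abs_nonneg _).trans (hB 0)
  rcases (sum_nonneg fun x (_ : x ∈ univ) => hN x).eq_or_lt with hM | hM
  · have hz : ∀ x, tens nf x = 0 := fun x =>
      (sum_eq_zero_iff_of_nonneg fun x _ => hN x).1 hM.symm x (mem_univ x)
    simp [hz]
  set I : (Om D → ∀ i, V i) → ℝ := fun x => ind T sa (x a) * ind T sb (x b) with hI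
  set C : (Om D → ∀ i, V i) → ℝ := fun x => res T sa u (x a) * res T sb v (x b) with hC
  have hind : ∀ s x y : ∀ i, V i, ind T s (T.piecewise x y) = ind T s x := fun s x y =>
    ES.depOn_ind T s _ _ fun i hi => by simp [Finset.piecewise, hi]
  have hres : ∀ (s x y : ∀ i, V i) (w : (∀ i, V i) → ℝ),
      res T s w (T.piecewise x y) = res T s w y := fun s x y w =>
    ES.depOn_res T s w _ _ fun i hi => by simp [Finset.piecewise, mem_compl.1 hi]
  have hC' : ∀ x y : Om D → ∀ i, V i, C (fun c => T.piecewise (x c) (y c)) = C y := fun x y => by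
    simp only [hC, hres]
  have h1 := indep_tens nf T (fun x => I x * H x) C (fun x y => by simp only [hI, hind, hH]) hC'
  have h2 := indep_tens nf T I C (fun x y => by simp only [hI, hind]) hC'
  have h3 : |∑ x, tens nf x * (I x * H x)| ≤ B * |∑ x, tens nf x * I x| := by
    have hI0 : ∀ x, 0 ≤ I x := fun x => mul_nonneg (ES.ind_nonneg _ _ _) (ES.ind_nonneg _ _ _)
    rw [abs_of_nonneg (sum_nonneg fun x _ => mul_nonneg (hN x) (hI0 x)), mul_sum]
    refine (abs_sum_le_sum_abs _ _).trans (sum_le_sum fun x _ => ?_)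
    rw [abs_mul, abs_mul, abs_of_nonneg (hN x), abs_of_nonneg (hI0 x)]
    nlinarith [mul_le_mul_of_nonneg_left (hB x) (mul_nonneg (hN x) (hI0 x))]
  have e1 : ∑ x, tens nf x * ((u (x a) * ind T sa (x a)) * (v (x b) * ind T sb (x b)) * H x) =
      ∑ x, tens nf x * (I x * H x * C x) := sum_congr rfl fun x _ => by
    rw [mul_ind T sa, mul_ind T sb]; simp only [hI, hC]; ring
  have e2 : ∑ x, tens nf x * ((u (x a) * ind T sa (x a)) * (v (x b) * ind T sb (x b))) =
      ∑ x, tens nf x * (I x * C x) := sum_congr rfl fun x _ => by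
    rw [mul_ind T sa, mul_ind T sb]; simp only [hI, hC]; ring
  rw [e1, e2]
  refine le_of_mul_le_mul_right ?_ hM
  rw [← abs_of_pos hM, ← abs_mul, mul_assoc, ← abs_mul, h1, h2, abs_mul, abs_mul, ← mul_assoc]
  exact mul_le_mul_of_nonneg_right h3 (abs_nonneg _)

/-- representatives of the configurations on `T` -/
noncomputable def rep (V : ι → Type) [∀ i, AddCommGroup (V i)] [∀ i, Fintype (V i)]
    (T : Finset ι) : Finset (∀ i, V i) :=
  Fintype.piFinset fun i => if i ∈ T then univ else {0}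

lemma sum_ind (T : Finset ι) (x : ∀ i, V i) : ∑ s ∈ rep V T, ind T s x = 1 := by
  simp only [ES.ind_eq_prod]
  unfold rep
  rw [← prod_univ_sum (fun i => if i ∈ T then (univ : Finset (V i)) else {0})
    fun i t => if i ∈ T then (if x i = t then (1 : ℝ) else 0) else 1]
  refine prod_eq_one fun i _ => ?_
  by_cases hi : i ∈ T <;> simp [hi]

omit [∀ i, DecidableEq (V i)] in
lemma card_rep_le {q : ι → ℕ} (hV : ∀ i, Fintype.card (V i) ≤ q i) (T : Finset ι) :
    (rep V T).card ≤ qq q T := by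
  unfold rep qq
  rw [Fintype.card_piFinset, ← prod_ite_mem_eq T]
  refine prod_le_prod' fun i _ => ?_
  by_cases hi : i ∈ T <;> simp [hi, hV i]

/-- reduction to the fibres -/
lemma fibres_le {nf : ∀ i, (Om D → V i) → ℝ} (h0 : ∀ i x, 0 ≤ nf i x) {a b : Om D}
    {q : ι → ℕ} (hV : ∀ i, Fintype.card (V i) ≤ q i) (T : Finset ι)
    (u v : (∀ i, V i) → ℝ) {H : (Om D → ∀ i, V i) → ℝ} {B ε : ℝ}
    (hH : ∀ x y : Om D → ∀ i, V i, H (fun c => T.piecewise (x c) (y c)) = H x)
    (hB : ∀ x, |H x| ≤ B) (hε : 0 ≤ ε)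
    (h : ∀ sa sb, |∑ x, tens nf x * ((u (x a) * ind T sa (x a)) * (v (x b) * ind T sb (x b)))| ≤ ε) :
    |∑ x, tens nf x * (u (x a) * v (x b) * H x)| ≤ (qq q T : ℝ) ^ 2 * (B * ε) := by
  have hB0 : 0 ≤ B := (abs_nonneg _).trans (hB 0)
  have e : ∑ x, tens nf x * (u (x a) * v (x b) * H x) = ∑ sa ∈ rep V T, ∑ sb ∈ rep V T,
      ∑ x, tens nf x * ((u (x a) * ind T sa (x a)) * (v (x b) * ind T sb (x b)) * H x) := by
    symm
    simp only [sum_comm (s := rep V T) (t := univ)]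
    refine sum_congr rfl fun x _ => ?_
    simp only [← mul_sum, ← sum_mul, sum_ind, mul_one]
  have hc : ((rep V T).card : ℝ) ≤ qq q T := by exact_mod_cast card_rep_le hV T
  rw [e]
  refine (abs_sum_le_sum_abs _ _).trans ?_
  refine (sum_le_card_nsmul _ _ ((rep V T).card • (B * ε)) fun sa _ => ?_).trans ?_
  · refine (abs_sum_le_sum_abs _ _).trans (sum_le_card_nsmul _ _ _ fun sb _ => ?_)
    exact (fibre_le h0 T sa sb u v hH hB).trans (mul_le_mul_of_nonneg_left (h sa sb) hB0)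
  · rw [nsmul_eq_mul, nsmul_eq_mul, ← mul_assoc, sq]
    have := mul_nonneg hB0 hε
    gcongr

omit [∀ i, AddCommGroup (V i)] in
/-- the truncation is invisible to the low part after restriction to a fibre -/
lemma proj_low_mul_ind [∀ i, Nonempty (V i)] {q : ι → ℕ} (hq : ∀ i, 1 ≤ q i) {y y' : ℝ}
    (T : Finset ι) (hT : (qq q T : ℝ) ≤ y') (s : ∀ i, V i) (f : (∀ i, V i) → ℝ) :
    proj (low q ∅ y) (fun x => proj (low q ∅ (y * y')) f x * ind T s x) =
      proj (low q ∅ y) fun x => f x * ind T s x := by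
  have h1 : (fun x => f x * ind T s x) = fun x => proj (low q ∅ (y * y')) f x * ind T s x +
      ∑ U ∈ (low q ∅ (y * y'))ᶜ, es U f x * ind T s x := by
    funext x
    rw [← sum_mul, ← add_mul, proj, sum_add_sum_compl, ES.sum_es]
  rw [h1, ES.proj_add, ES.proj_sum]
  funext x
  rw [left_eq_add]
  refine sum_eq_zero fun U hU => sum_eq_zero fun W hW => ?_
  have hU' : y * y' < qq q U := by simpa [ES.mem_low] using hU
  have hW' : (qq q W : ℝ) ≤ y := (ES.mem_low.1 hW).2
  have hn : ¬ U ⊆ W ∪ T := fun hsub => by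
    have h2 : (qq q U : ℝ) ≤ qq q W * qq q T := by
      exact_mod_cast (ES.qq_mono hq hsub).trans (ES.qq_union_le hq W T)
    have h3 : (qq q W : ℝ) * qq q T ≤ y * y' :=
      mul_le_mul hW' hT (Nat.cast_nonneg _) ((Nat.cast_nonneg _).trans hW')
    linarith
  obtain ⟨i, hiU, hi⟩ := not_subset.1 hn
  rw [mem_union, not_or] at hi
  have h4 := ES.avg_es {i} W fun x => es U f x * ind T s x
  rw [if_pos (disjoint_singleton_right.2 hi.1), ES.avg_es_comm,
    ES.avg_mul_right (ES.depOn_ind T s) (disjoint_singleton_right.2 hi.2),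
    ES.avg_single_es hiU] at h4
  rw [← h4]
  simp [ES.es_zero]

end Pair

lemma ptA_ne_ptB {D : ℕ} (hD : 1 ≤ D) : ptA D ≠ ptB D := fun h => by
  have := congrFun h ⟨0, hD⟩
  simp [ptA, ptB] at this

end NF

open NF in
/-- **B5b** -/
theorem nf : NFStmt := by
  intro D K κ hD hκ ι _ _ V _ _ _ q ρ β ν nf kap Z f hZ hq hinj hV hν hρ hs hf hpair
  classical
  set r := 6 ^ D with hr
  have hr1 : 1 ≤ r := Nat.one_le_pow _ _ (by norm_num)
  have hZ1 : 1 ≤ Z := by linarith
  have hq1 : ∀ i, 1 ≤ q i := fun i => le_trans (by norm_num) (hq i)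
  set η := (Z ^ K) ^ (-κ) with hη
  have hη0 : 0 ≤ η := by positivity
  set a := ptA D with ha
  set b := ptB D with hb
  have hab : a ≠ b := ptA_ne_ptB hD
  set Y := Z ^ (K + 2 * r) with hY
  set k : (∀ i, V i) → ℝ := fun z => ∏ i, kap i (z i) with hk
  choose m hm0 hm1 hm using fun i => (hs i).pair
  have hZY : Z ^ 2 ≤ Y := pow_le_pow_right₀ hZ1 (by omega)
  have h1Y : (1 : ℝ) ≤ Y := one_le_pow₀ hZ1
  -- the correlation of the two distinguished points on a fibre
  have hcor : ∀ T : Finset ι, (qq q T : ℝ) ≤ Z ^ (2 * r) → ∀ sa sb : ∀ i, V i,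
      |∑ x, tens nf x * ((proj (low q ∅ Y) (f a) (x a) * ind T sa (x a)) *
        (proj (low q ∅ Y) (f b) (x b) * ind T sb (x b)))| ≤ 5 * η := fun T hT sa sb => by
    rw [pair_tens hm (fun z => proj (low q ∅ Y) (f a) z * ind T sa z)
      fun z => proj (low q ∅ Y) (f b) z * ind T sb z, abs_mul,
      abs_of_nonneg (prod_nonneg fun i _ => hm0 i)]
    refine le_trans (mul_le_of_le_one_left (abs_nonneg _)
      (prod_le_one (fun i _ => hm0 i) fun i _ => hm1 i)) ?_
    rw [Bk_split (low q ∅ (Z ^ K))]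
    refine (abs_add_le _ _).trans ?_
    have hlow : |Bk (proj (low q ∅ (Z ^ K)) k) (fun z => proj (low q ∅ Y) (f a) z * ind T sa z)
        fun z => proj (low q ∅ Y) (f b) z * ind T sb z| ≤ η := by
      rw [Bk_proj_both, hY, pow_add, proj_low_mul_ind hq1 T hT, proj_low_mul_ind hq1 T hT,
        ← Bk_proj_both]
      exact hpair T sa sb hT
    have hL2 : ∀ (ω : Om D) (s : ∀ i, V i),
        𝔼 z, (proj (low q ∅ Y) (f ω) z * ind T s z) ^ 2 ≤ 4 := fun ω s => by
      have h4 := (hf ω).bes ∅ s (low q ∅ Y) (by simpa using h1Y) fun U hU => ES.mem_low.1 hU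
      rw [ES.res_empty] at h4
      refine le_trans (expect_le_expect fun z _ => ?_) h4
      rw [mul_pow]
      exact mul_le_of_le_one_right (sq_nonneg _)
        (pow_le_one₀ (ES.ind_nonneg _ _ _) (ES.ind_le_one _ _ _))
    have hhigh := abs_Bk_proj_le (fun i => (hs i).kap_nonneg) (fun i => (hs i).kap_mean)
      (fun i => (hs i).op) (low q ∅ (Z ^ K))ᶜ hη0 (fun U hU => by
        have hU' : Z ^ K < qq q U := by simpa [ES.mem_low] using hU
        rw [prod_pow]
        refine pow_le_pow_left₀ (prod_nonneg fun i _ => (hρ i).1) ?_ 2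
        refine (prod_le_prod (fun i _ => (hρ i).1) fun i _ => (hρ i).2).trans ?_
        rw [Real.finsetProd_rpow _ _ (fun i _ => Nat.cast_nonneg _), ← Nat.cast_prod]
        exact Real.rpow_le_rpow_of_nonpos (by positivity) hU'.le (by linarith))
      (fun z => proj (low q ∅ Y) (f a) z * ind T sa z)
      fun z => proj (low q ∅ Y) (f b) z * ind T sb z
    have := hL2 a sa
    have := hL2 b sb
    nlinarith
  -- expansion of the other points
  set s : Om D → Finset (Finset ι) := fun c => if c = a ∨ c = b then {∅} else low q ∅ (Z ^ 2)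
    with hsdef
  set g : Om D → Finset ι → (∀ i, V i) → ℝ := fun c T =>
    if c = a ∨ c = b then proj (low q ∅ Y) (f c) else es T (f c) with hg
  have e1 : (fun ω => proj (low q ∅ (lev D (Z ^ 2) Y ω)) (f ω)) =
      fun c v => ∑ T ∈ s c, g c T v := by
    funext c v
    by_cases hc : c = a ∨ c = b
    · simp only [lev, hsdef, hg, ← ha, ← hb, if_pos hc, sum_singleton]
    · simp only [lev, hsdef, hg, ← ha, ← hb, if_neg hc, proj]
  have hZ2 : (1 : ℝ) ≤ Z ^ 2 := one_le_pow₀ hZ1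
  have hsq : ∀ c, ∀ T ∈ s c, (qq q T : ℝ) ≤ Z ^ 2 := fun c T hT => by
    by_cases hc : c = a ∨ c = b
    · simp only [hsdef, if_pos hc, mem_singleton] at hT
      simpa [hT] using hZ2
    · simp only [hsdef, if_neg hc] at hT
      exact (ES.mem_low.1 hT).2
  have hcard : ((Fintype.piFinset s).card : ℝ) ≤ Z ^ (2 * r) := by
    rw [Fintype.card_piFinset, Nat.cast_prod, pow_mul, hr, ← Local.card_Om, ← card_univ,
      ← prod_const]
    exact prod_le_prod (fun _ _ => Nat.cast_nonneg _) fun c _ =>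
      ES.card_le_of_qq_le hq1 hinj (by positivity) (hsq c)
  have hterm : ∀ φ ∈ Fintype.piFinset s, |Local.Lam (tens nf) fun c => g c (φ c)| ≤
      (Z ^ (2 * r)) ^ 2 * ((4 * Z ^ 2) ^ r * (5 * η)) := fun φ hφ => by
    rw [Fintype.mem_piFinset] at hφ
    set T := univ.biUnion φ with hT
    have hqT : (qq q T : ℝ) ≤ Z ^ (2 * r) := by
      have h1 : ∀ t : Finset (Om D), qq q (t.biUnion φ) ≤ ∏ c ∈ t, qq q (φ c) := fun t => by
        induction t using Finset.induction_on with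
        | empty => simp
        | insert c t hc ih =>
          rw [biUnion_insert, prod_insert hc]
          exact (ES.qq_union_le hq1 _ _).trans (Nat.mul_le_mul_left _ ih)
      have h2 : (qq q T : ℝ) ≤ ∏ c, (qq q (φ c) : ℝ) := by exact_mod_cast h1 univ
      refine h2.trans ?_
      rw [pow_mul, hr, ← Local.card_Om, ← card_univ, ← prod_const]
      exact prod_le_prod (fun _ _ => Nat.cast_nonneg _) fun c _ => hsq c _ (hφ c)
    set H : (Om D → ∀ i, V i) → ℝ := fun x =>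
      ∏ c ∈ (univ.erase a).erase b, es (φ c) (f c) (x c) with hH
    have e2 : (Local.Lam (tens nf) fun c => g c (φ c)) = ∑ x, tens nf x *
        (proj (low q ∅ Y) (f a) (x a) * proj (low q ∅ Y) (f b) (x b) * H x) := by
      refine sum_congr rfl fun x _ => ?_
      rw [← mul_prod_erase univ _ (mem_univ a),
        ← mul_prod_erase _ _ (mem_erase.2 ⟨hab.symm, mem_univ b⟩), ← mul_assoc (g a _ _)]
      congr 2
      · simp [hg]
      · refine prod_congr rfl fun c hc => ?_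
        simp only [mem_erase] at hc
        simp only [hg, if_neg (not_or.2 ⟨hc.2.1, hc.1⟩)]
    have hHB : ∀ x, |H x| ≤ (4 * Z ^ 2) ^ r := fun x => by
      rw [hH, abs_prod]
      have h1 : ∀ c, |es (φ c) (f c) (x c)| ≤ 4 * Z ^ 2 := fun c => by
        refine ((hf c).abs_es_le hq1 ((hsq c _ (hφ c)).trans hZY) _).trans ?_
        have h2 : (2 : ℝ) ^ (φ c).card ≤ qq q (φ c) := by
          exact_mod_cast ES.pow_card_le_qq hq (φ c)
        linarith [hsq c _ (hφ c)]
      refine (prod_le_prod (fun _ _ => abs_nonneg _) fun c _ => h1 c).trans ?_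
      rw [prod_const]
      refine pow_le_pow_right₀ (by linarith) ?_
      rw [hr, ← Local.card_Om]
      exact card_le_univ _
    rw [e2]
    refine (fibres_le (fun i => (hs i).nf_nonneg) hV T _ _ (fun x y => ?_) hHB (by positivity)
      (hcor T hqT)).trans ?_
    · refine prod_congr rfl fun c _ => ES.depOn_es _ _ _ _ fun i hi => ?_
      have : i ∈ T := mem_biUnion.2 ⟨c, mem_univ c, hi⟩
      simp [Finset.piecewise, this]
    · gcongr
  rw [e1, Local.Lam_sum]
  refine (abs_sum_le_sum_abs _ _).trans ((sum_le_card_nsmul _ _ _ hterm).trans ?_)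
  rw [nsmul_eq_mul]
  have h4 : (4 * Z ^ 2) ^ r ≤ Z ^ (4 * r) := by
    rw [pow_mul]
    have : 4 ≤ Z ^ 2 := by nlinarith
    exact pow_le_pow_left₀ (by positivity) (by nlinarith) r
  have h5 : (5 : ℝ) ≤ Z ^ (3 * r) :=
    le_trans (by nlinarith) (pow_le_pow_right₀ hZ1 (by omega : 3 ≤ 3 * r))
  calc _ ≤ Z ^ (2 * r) * ((Z ^ (2 * r)) ^ 2 * (Z ^ (4 * r) * (Z ^ (3 * r) * η))) := by gcongr
    _ = Z ^ (13 * r) * η := by ring
    _ ≤ Z ^ (20 * r) * η := by
      gcongr
      norm_num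

end Crest.Agent.N41.Step
end

-- ▼ part N41/Pair/Loc
section

/-!
# Row 41, Pair Lemma, part 3 (helper95): local factors of the singular series.
-/

set_option autoImplicit false

open Finset Polynomial
open scoped BigOperators

namespace Crest.Agent.N41.Pair

open Crest.Agent.N41.Exp

/-- the additive character `t ↦ e(a t / n)` -/
noncomputable def ch (a : ℤ) (n : ℕ) (t : ℤ) : ℂ := e (a * t / n)

lemma per_ch (a : ℤ) (n : ℕ) : Per n (ch a n) := per_e n a

@[simp] lemma norm_ch (a : ℤ) (n : ℕ) (t : ℤ) : ‖ch a n t‖ = 1 := norm_e _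

lemma ch_one (a t : ℤ) : ch a 1 t = 1 := by
  have := e_int (a * t)
  simpa [ch] using this

lemma ch_add (a : ℤ) (n : ℕ) (s t : ℤ) : ch a n (s + t) = ch a n s * ch a n t := by
  unfold ch; rw [← e_add]; congr 1; push_cast; ring

lemma sum_ch {l : ℕ} (hl : l ≠ 0) {b : ℤ} (hb : ¬ (l : ℤ) ∣ b) : ∑ s ∈ range l, ch b l s = 0 :=
  sum_e_eq_zero hl hb

lemma ch_shift {h l : ℕ} (hh : h ≠ 0) (a c s t t' : ℤ)
    (hd : ((h * l : ℕ) : ℤ) ∣ t' - (t + h * (c * s))) :
    ch a (h * l) t' = ch a (h * l) t * ch (a * c) l s := by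
  rw [per_ch a (h * l) _ _ hd, ch_add]
  congr 1
  unfold ch
  have : (h : ℝ) ≠ 0 := by exact_mod_cast hh
  congr 1; push_cast; field_simp

lemma evz_intCast (p : ℕ) (P : ℤ[X]) (m : ℤ) :
    evz p P (m : ZMod p) = ((P.eval m : ℤ) : ZMod p) := by
  unfold evz
  rw [eval_intCast_map]; simp

/-- Hensel vanishing -/
lemma hensel {p j Q : ℕ} (hp : p.Prime) (hj : 2 ≤ j) (hQ : p ^ j ∣ Q) {a : ℤ}
    (ha : ¬ (p : ℤ) ∣ a) (P : ℤ[X]) {G : ℤ → ℂ} (hG : Per p G)
    (h0 : ∀ m, G m ≠ 0 → ¬ (p : ℤ) ∣ P.derivative.eval m) :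
    mean Q (fun m => G m * ch a (p ^ j) (P.eval m)) = 0 := by
  obtain ⟨i, rfl⟩ : ∃ i, j = i + 2 := ⟨j - 2, by omega⟩
  have hper : Per Q (fun m => G m * ch a (p ^ (i + 2)) (P.eval m)) :=
    (hG.mono ((dvd_pow_self p (by omega)).trans hQ)).mul (((per_ch a _).mono hQ).poly P)
  refine hper.mean_eq_zero p hp.ne_zero ((p ^ (i + 1) : ℕ) : ℤ) fun m => ?_
  have h1 : ∀ s : ℕ, G (m + ((p ^ (i + 1) : ℕ) : ℤ) * s) *
      ch a (p ^ (i + 2)) (P.eval (m + ((p ^ (i + 1) : ℕ) : ℤ) * s)) =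
      G m * ch a (p ^ (i + 2)) (P.eval m) * ch (a * P.derivative.eval m) p s := by
    intro s
    rw [hG (m + ((p ^ (i + 1) : ℕ) : ℤ) * s) m ⟨p ^ i * s, by push_cast; ring⟩, mul_assoc,
      pow_succ p (i + 1)]
    congr 1
    refine ch_shift (pow_ne_zero _ hp.ne_zero) a _ s _ _ ?_
    obtain ⟨K, hK⟩ := binomExpansion P m (((p ^ (i + 1) : ℕ) : ℤ) * s)
    rw [hK]
    exact ⟨K * p ^ i * s ^ 2, by push_cast; ring⟩
  simp only [h1, ← mul_sum]
  by_cases hm : G m = 0
  · simp [hm]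
  · rw [sum_ch hp.ne_zero, mul_zero]
    intro hd
    rcases (Nat.prime_iff_prime_int.mp hp).dvd_or_dvd hd with h | h
    · exact ha h
    · exact h0 m hm h

/-- vanishing at a prime modulo which `P` is linear -/
lemma small_vanish {l q₀ N Q : ℕ} (hl : l.Prime) (hq : q₀ ≠ 0) (hlq : l ∣ q₀) {a : ℤ}
    (ha : ¬ (l : ℤ) ∣ a) (hN : ¬ l ∣ N) (P : ℤ[X]) (h1 : ¬ (l : ℤ) ∣ P.coeff 1)
    (h2 : ∀ j, 2 ≤ j → (l : ℤ) ∣ P.coeff j) {G : ℤ → ℂ} (hG : Per N G)
    (hper : Per Q (fun m => G m * ch a q₀ (P.eval m))) :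
    mean Q (fun m => G m * ch a q₀ (P.eval m)) = 0 := by
  obtain ⟨h, rfl⟩ := hlq
  have hh : h ≠ 0 := fun h0 => hq (by simp [h0])
  obtain ⟨P₁, hP₁⟩ : C (l : ℤ) ∣ P - C (P.coeff 0) - C (P.coeff 1) * X := by
    rw [C_dvd_iff_dvd_coeff]
    intro i
    rw [coeff_sub, coeff_sub, coeff_C_mul, coeff_C, coeff_X]
    rcases i with _ | _ | i
    · simp
    · simp
    · simpa using h2 (i + 1 + 1) (by omega)
  have hev : ∀ x : ℤ, P.eval x = P.coeff 0 + P.coeff 1 * x + l * P₁.eval x := by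
    intro x
    have := congrArg (eval x) hP₁
    simp only [eval_sub, eval_C, eval_mul, eval_X] at this
    linarith
  refine hper.mean_eq_zero l hl.ne_zero ((h * N : ℕ) : ℤ) fun m => ?_
  have h3 : ∀ s : ℕ, G (m + ((h * N : ℕ) : ℤ) * s) *
      ch a (l * h) (P.eval (m + ((h * N : ℕ) : ℤ) * s)) =
      G m * ch a (l * h) (P.eval m) * ch (a * (P.coeff 1 * N)) l s := by
    intro s
    rw [hG (m + ((h * N : ℕ) : ℤ) * s) m ⟨h * s, by push_cast; ring⟩, mul_assoc, mul_comm l h]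
    congr 1
    refine ch_shift hh a _ s _ _ ?_
    obtain ⟨K, hK⟩ := sub_dvd_eval_sub (m + ((h * N : ℕ) : ℤ) * s) m P₁
    refine ⟨N * s * K, ?_⟩
    rw [hev, hev m]
    push_cast at hK ⊢
    linear_combination (l : ℤ) * hK
  simp only [h3, ← mul_sum]
  rw [sum_ch hl.ne_zero, mul_zero]
  intro hd
  have hl' := Nat.prime_iff_prime_int.mp hl
  rcases hl'.dvd_or_dvd hd with h | h
  · exact ha h
  · rcases hl'.dvd_or_dvd h with h | h
    · exact h1 h
    · exact hN (Int.natCast_dvd_natCast.mp h)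

lemma mean_push (p : ℕ) [NeZero p] (P : ℤ[X]) (π : ZMod p → ℝ) {F : ℤ → ℂ} (hF : Per p F) :
    mean p (fun t => (push p P π (t : ZMod p) : ℂ) * F t) =
      mean p (fun m => (π (m : ZMod p) : ℂ) * F (P.eval m)) := by
  set g : ZMod p → ℂ := fun x => F ((x.val : ℕ) : ℤ) with hg
  have h1 : ∀ m : ℤ, F m = g (m : ZMod p) := fun m => hF.eq_val m
  simp only [h1, ← evz_intCast]
  rw [mean_zmod p (fun x => (push p P π x : ℂ) * g x),
    mean_zmod p (fun x => (π x : ℂ) * g (evz p P x))]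
  congr 1
  rw [← sum_fiberwise (s := univ) (g := fun n => evz p P n)
    (f := fun x => (π x : ℂ) * g (evz p P x))]
  refine sum_congr rfl fun t _ => ?_
  unfold push
  push_cast
  rw [sum_mul]
  exact sum_congr rfl fun n hn => by rw [(mem_filter.mp hn).2]

lemma norm_mean_le_zmod {p Q : ℕ} [NeZero p] (hQ : Q ≠ 0) (hpQ : p ∣ Q) (f : ℤ → ℂ)
    (g : ZMod p → ℝ) (h : ∀ m : ℤ, ‖f m‖ ≤ g (m : ZMod p)) : ‖mean Q f‖ ≤ (∑ x, g x) / p := by
  refine (norm_mean_le f (fun m => g (m : ZMod p)) h).trans (le_of_eq ?_)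
  have h1 := (per_zmod p (fun x => (g x : ℂ))).mean_dvd hpQ hQ
  rw [mean_zmod p (fun x => (g x : ℂ))] at h1
  unfold mean at h1
  beta_reduce at h1 ⊢
  exact_mod_cast h1

/-- Fourier coefficients are bounded by the operator norm -/
lemma norm_fourier_le {p : ℕ} [NeZero p] {κ : ZMod p → ℝ} {ρ : ℝ} (hρ : 0 ≤ ρ) (h : OpBd κ ρ)
    {a : ℤ} (ha : ¬ (p : ℤ) ∣ a) : ‖mean p (fun t => (κ (t : ZMod p) : ℂ) * ch a p t)‖ ≤ 2 * ρ := by
  set ε : ZMod p → ℂ := fun x => ch a p ((x.val : ℕ) : ℤ) with hε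
  have h1 : ∀ m : ℤ, ch a p m = ε (m : ZMod p) := fun m => (per_ch a p).eq_val m
  have hadd : ∀ x y, ε (x + y) = ε x * ε y := by
    intro x y
    simp only [hε]
    rw [← ch_add, h1 (_ + _)]
    simp [hε]
  have hsum : ∑ x, ε x = 0 := by
    rw [← sum_range_zmod p ε]
    simp only [← h1]
    exact sum_ch (NeZero.ne p) ha
  simp only [h1]
  rw [mean_zmod p (fun x => (κ x : ℂ) * ε x)]
  set A : ℂ := (∑ x, (κ x : ℂ) * ε x) / p with hA
  have hp0 : (0 : ℝ) < p := by exact_mod_cast NeZero.pos p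
  have key : ∀ φ : ℂ →ₗ[ℝ] ℝ, (∀ z, |φ z| ≤ ‖z‖) → 𝔼 s, φ (ε s * A) ^ 2 ≤ ρ ^ 2 := by
    intro φ hφ
    have h2 := h (fun s => φ (ε s * A)) (fun t => φ (ε t)) (by
      rw [← map_sum, ← sum_mul, hsum, zero_mul, map_zero])
    have h3 : ∀ s, 𝔼 t, φ (ε s * A) * φ (ε t) * κ (t - s) = φ (ε s * A) ^ 2 := by
      intro s
      have e1 : ε s * A = (1 / p : ℝ) • ∑ t, κ (t - s) • ε t := by
        rw [← Equiv.sum_comp (Equiv.addRight s)]
        simp only [Equiv.coe_addRight, add_sub_cancel_right, hadd, hA, Complex.real_smul]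
        rw [mul_div_assoc', mul_sum, sum_div, mul_sum]
        refine sum_congr rfl fun t _ => ?_
        push_cast; ring
      have e2 : φ (ε s * A) = 𝔼 t, φ (ε t) * κ (t - s) := by
        rw [e1, map_smul, map_sum, expect_eq_sum_div_card]
        simp only [map_smul, smul_eq_mul, card_univ, ZMod.card]
        rw [one_div, inv_mul_eq_div]
        congr 1
        exact sum_congr rfl fun t _ => mul_comm _ _
      simp only [mul_assoc]
      rw [← mul_expect, ← e2, sq]
    simp only [h3] at h2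
    have h4 : 𝔼 t, φ (ε t) ^ 2 ≤ 1 := by
      refine expect_le univ_nonempty fun t _ => ?_
      have := hφ (ε t)
      rw [show ‖ε t‖ = 1 from norm_ch _ _ _] at this
      rw [← sq_abs]; nlinarith [abs_nonneg (φ (ε t))]
    set U := 𝔼 s, φ (ε s * A) ^ 2 with hU
    have hU0 : 0 ≤ U := expect_nonneg fun s _ => sq_nonneg _
    have h5 : U ^ 2 ≤ ρ ^ 2 * U := h2.trans (by
      have : 0 ≤ ρ ^ 2 * U := by positivity
      nlinarith)
    rcases hU0.eq_or_lt with h6 | h6
    · rw [← h6]; positivity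
    · nlinarith
  have k1 := key Complex.reLm Complex.abs_re_le_norm
  have k2 := key Complex.imLm Complex.abs_im_le_norm
  have k3 : ‖A‖ ^ 2 = 𝔼 s, Complex.reLm (ε s * A) ^ 2 + 𝔼 s, Complex.imLm (ε s * A) ^ 2 := by
    rw [← expect_add_distrib]
    have : ∀ s, Complex.reLm (ε s * A) ^ 2 + Complex.imLm (ε s * A) ^ 2 = ‖A‖ ^ 2 := by
      intro s
      have e1 : ‖ε s * A‖ = ‖A‖ := by rw [norm_mul, show ‖ε s‖ = 1 from norm_ch _ _ _, one_mul]
      rw [← e1, Complex.sq_norm, Complex.normSq_apply]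
      simp only [Complex.reLm_coe, Complex.imLm_coe]; ring
    simp only [this]
    rw [expect_const univ_nonempty]
  have : ‖A‖ ^ 2 ≤ (2 * ρ) ^ 2 := by nlinarith
  exact (pow_le_pow_iff_left₀ (norm_nonneg _) (by positivity) two_ne_zero).mp this

lemma card_deriv_roots {p k : ℕ} [NeZero p] (hp : p.Prime) (hk : k < p) {P : ℤ[X]}
    (hP : P.natDegree ≤ k) (hj : ∃ j, 1 ≤ j ∧ ¬ (p : ℤ) ∣ P.coeff j) :
    #(univ.filter fun n : ZMod p => evz p (derivative P) n = 0) ≤ k := by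
  classical
  have : Fact p.Prime := ⟨hp⟩
  obtain ⟨j, hj1, hj2⟩ := hj
  have hjk : j ≤ k := (le_natDegree_of_ne_zero (fun h => hj2 (by rw [h]; simp))).trans hP
  obtain ⟨i, rfl⟩ : ∃ i, j = i + 1 := ⟨j - 1, by omega⟩
  set g := (derivative P).map (Int.castRingHom (ZMod p)) with hg
  have hg0 : g ≠ 0 := by
    intro h
    have h1 : g.coeff i = 0 := by rw [h]; simp
    rw [hg, coeff_map, coeff_derivative, eq_intCast, ZMod.intCast_zmod_eq_zero_iff_dvd] at h1
    rcases (Nat.prime_iff_prime_int.mp hp).dvd_or_dvd h1 with h | h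
    · exact hj2 h
    · have h2 : p ∣ i + 1 := by exact_mod_cast h
      have := Nat.le_of_dvd (by omega) h2
      omega
  calc #(univ.filter fun n : ZMod p => evz p (derivative P) n = 0) ≤ #g.roots.toFinset :=
        card_le_card fun n hn => by
          rw [Multiset.mem_toFinset, mem_roots hg0]; exact (mem_filter.mp hn).2
    _ ≤ g.roots.card := Multiset.toFinset_card_le _
    _ ≤ g.natDegree := card_roots' g
    _ ≤ k := natDegree_map_le.trans ((natDegree_derivative_le P).trans (by omega))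

/-- the local factor `C_p` -/
lemma norm_C_le {p j k : ℕ} [NeZero p] (hp : p.Prime) (hk : k < p) (hj : 1 ≤ j) {P : ℤ[X]}
    (hP : P.natDegree ≤ k) (hc : ∃ j, 1 ≤ j ∧ ¬ (p : ℤ) ∣ P.coeff j) {a : ℤ} (ha : ¬ (p : ℤ) ∣ a)
    {σ : ℝ} (hσ : ‖mean p (fun m => ch a p (P.eval m))‖ ≤ σ) (ι : ZMod p → ℝ)
    (hι : ∀ n, |ι n| ≤ 2) (hι1 : ∑ n, |ι n - 1| ≤ 2) :
    ‖mean (p ^ (j + 1)) (fun m => (ι (m : ZMod p) : ℂ) * ch a (p ^ j) (P.eval m))‖ ≤
      σ + (2 + 2 * k) / p := by
  classical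
  have hp0 : (0 : ℝ) < p := by exact_mod_cast hp.pos
  have hσ0 : 0 ≤ σ := (norm_nonneg _).trans hσ
  have hQ : p ^ (j + 1) ≠ 0 := pow_ne_zero _ hp.ne_zero
  have hpQ : p ∣ p ^ (j + 1) := dvd_pow_self p (by omega)
  rcases hj.eq_or_lt with rfl | hj
  · have e1 : (fun m : ℤ => (ι (m : ZMod p) : ℂ) * ch a (p ^ 1) (P.eval m)) = fun m : ℤ =>
        ch a p (P.eval m) + ((ι (m : ZMod p) - 1 : ℝ) : ℂ) * ch a p (P.eval m) := by
      funext m; rw [pow_one]; push_cast; ring
    rw [e1, mean_add, ((per_ch a p).poly P).mean_dvd hpQ hQ]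
    refine (norm_add_le _ _).trans (add_le_add hσ ?_)
    refine (norm_mean_le_zmod hQ hpQ _ (fun x => |ι x - 1|) fun m => ?_).trans ?_
    · rw [norm_mul, norm_ch, mul_one, Complex.norm_real, Real.norm_eq_abs]
    · gcongr
      linarith [show (0 : ℝ) ≤ k by positivity]
  · set g : ZMod p → ℂ := fun x => if evz p (derivative P) x = 0 then 0 else ι x with hg
    set g' : ZMod p → ℂ := fun x => if evz p (derivative P) x = 0 then ι x else 0 with hg'
    have e1 : (fun m : ℤ => (ι (m : ZMod p) : ℂ) * ch a (p ^ j) (P.eval m)) = fun m : ℤ =>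
        g (m : ZMod p) * ch a (p ^ j) (P.eval m) + g' (m : ZMod p) * ch a (p ^ j) (P.eval m) := by
      funext m; simp only [hg, hg']; split_ifs <;> simp
    rw [e1, mean_add, hensel hp hj (pow_dvd_pow p (by omega)) ha P (per_zmod p g) (by
      intro m hm hd
      apply hm
      simp only [hg]
      rw [if_pos]
      rw [evz_intCast, ZMod.intCast_zmod_eq_zero_iff_dvd]; exact hd), zero_add]
    refine (norm_mean_le_zmod hQ hpQ _
      (fun x => if evz p (derivative P) x = 0 then 2 else 0) fun m => ?_).trans ?_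
    · rw [norm_mul, norm_ch, mul_one]
      simp only [hg']
      split_ifs
      · rw [Complex.norm_real]; exact hι _
      · simp
    · rw [← sum_filter, sum_const, nsmul_eq_mul]
      have h1 : (#(univ.filter fun n : ZMod p => evz p (derivative P) n = 0) : ℝ) ≤ k := by
        exact_mod_cast card_deriv_roots hp hk hP hc
      refine le_trans ?_ (le_add_of_nonneg_left hσ0)
      gcongr
      linarith

end Crest.Agent.N41.Pair
end

-- ▼ part N41/Pair/Sing
section

/-!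
# Row 41, Pair Lemma, part 4 (helper95): comparison of the two singular series.
-/

set_option autoImplicit false

open Finset Polynomial
open scoped BigOperators

namespace Crest.Agent.N41.Pair

open Crest.Agent.N41.Exp
open Crest.Agent.N41.ES (qq)

variable {ι : Type} [Fintype ι] [DecidableEq ι]

omit [Fintype ι] in
lemma ch_factor (s : Finset ι) (n : ι → ℕ) (hn : ∀ i ∈ s, n i ≠ 0)
    (hc : ∀ i ∈ s, ∀ j ∈ s, i ≠ j → (n i).Coprime (n j)) (a : ℤ)
    (ha : IsCoprime a ((∏ i ∈ s, n i : ℕ) : ℤ)) :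
    ∃ b : ι → ℤ, (∀ i ∈ s, IsCoprime (b i) (n i)) ∧
      ∀ t, ch a (∏ i ∈ s, n i) t = ∏ i ∈ s, ch (b i) (n i) t := by
  induction s using Finset.induction_on generalizing a with
  | empty => exact ⟨fun _ => 0, by simp, fun t => by simp [ch_one]⟩
  | insert i s hi ih =>
    rw [prod_insert hi] at ha ⊢
    set N := ∏ j ∈ s, n j with hN
    have hcop : (n i).Coprime N := Nat.Coprime.prod_right fun j hj =>
      hc i (mem_insert_self _ _) j (mem_insert_of_mem hj) (fun h => hi (h ▸ hj))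
    obtain ⟨u, v, huv⟩ := Nat.isCoprime_iff_coprime.mpr hcop
    push_cast at ha
    have hN0 : (N : ℝ) ≠ 0 := by
      exact_mod_cast prod_ne_zero_iff.mpr fun j hj => hn j (mem_insert_of_mem hj)
    have hi0 : (n i : ℝ) ≠ 0 := by exact_mod_cast hn i (mem_insert_self _ _)
    obtain ⟨b, hb1, hb2⟩ := ih (fun j hj => hn j (mem_insert_of_mem hj))
      (fun j hj k hk => hc j (mem_insert_of_mem hj) k (mem_insert_of_mem hk)) (a * u)
      (IsCoprime.mul_left ha.of_mul_right_right ⟨n i, v, by linarith⟩)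
    have hne : ∀ j ∈ s, j ≠ i := fun j hj h => hi (h ▸ hj)
    refine ⟨Function.update b i (a * v), fun j hj => ?_, fun t => ?_⟩
    · rcases mem_insert.mp hj with rfl | hj
      · rw [Function.update_self]
        exact IsCoprime.mul_left ha.of_mul_right_left ⟨N, u, by linarith⟩
      · rw [Function.update_of_ne (hne j hj)]
        exact hb1 j hj
    · rw [prod_insert hi, Function.update_self, prod_congr rfl
        (g := fun j => ch (b j) (n j) t) (fun j hj => by rw [Function.update_of_ne (hne j hj)]),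
        ← hb2]
      unfold ch
      rw [← e_add]
      congr 1
      have h1 : (u : ℝ) * n i + v * N = 1 := by exact_mod_cast huv
      push_cast
      field_simp
      linear_combination (-(a : ℝ) * t) * h1

lemma mem_low {q : ι → ℕ} {y : ℝ} {S : Finset ι} : S ∈ low q ∅ y ↔ (qq q S : ℝ) ≤ y := by
  simp [low]

lemma alg (q : ι → ℕ) (hq : ∀ i, 1 ≤ q i) {y δ : ℝ} (hy : 0 < y) (hδ : 0 ≤ δ) (T : Finset ι)
    (A C C' : ι → ℂ) (h1 : ∀ i, i ∉ T → A i = 1 ∧ C i = 1 ∧ C' i = 1) (h2 : ∀ i ∈ T, C' i = 0)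
    (h3 : ∀ i ∈ T, ‖A i‖ + 2 * ‖C i‖ ≤ (q i : ℝ) ^ (-δ)) :
    ‖∑ S ∈ low q ∅ y, (∏ i ∈ S, (A i - C i)) * ∏ i ∈ Sᶜ, C i -
      ∑ S ∈ low q ∅ y, (∏ i ∈ S, (A i - C' i)) * ∏ i ∈ Sᶜ, C' i‖ ≤ y ^ (-δ) := by
  by_cases hT : (qq q T : ℝ) ≤ y
  · have key : ∀ D : ι → ℂ, (∀ i, i ∉ T → D i = 1) →
        ∑ S ∈ low q ∅ y, (∏ i ∈ S, (A i - D i)) * ∏ i ∈ Sᶜ, D i = ∏ i, A i := by
      intro D hD
      have e1 := prod_add (fun i => A i - D i) D univ
      simp only [sub_add_cancel, powerset_univ, ← compl_eq_univ_sdiff] at e1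
      rw [e1]
      refine sum_subset (subset_univ _) fun S _ hS => ?_
      have : ¬ S ⊆ T := fun hST => hS (mem_low.mpr (le_trans (by
        exact_mod_cast prod_le_prod_of_subset_of_one_le' hST fun i _ _ => hq i) hT))
      obtain ⟨i, hi, hiT⟩ := not_subset.mp this
      rw [prod_eq_zero hi (by rw [(h1 i hiT).1, hD i hiT, sub_self]), zero_mul]
    rw [key C fun i hi => (h1 i hi).2.1, key C' fun i hi => (h1 i hi).2.2, sub_self, norm_zero]
    positivity
  · have e2 : ∑ S ∈ low q ∅ y, (∏ i ∈ S, (A i - C' i)) * ∏ i ∈ Sᶜ, C' i = 0 := by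
      refine sum_eq_zero fun S hS => ?_
      have hTS : ¬ T ⊆ S := fun hST => hT (le_trans (by
        exact_mod_cast prod_le_prod_of_subset_of_one_le' hST fun i _ _ => hq i) (mem_low.mp hS))
      obtain ⟨i, hi, hiS⟩ := not_subset.mp hTS
      rw [prod_eq_zero (mem_compl.mpr hiS) (h2 i hi), mul_zero]
    rw [e2, sub_zero]
    have e1 := prod_add (fun i => ‖A i - C i‖) (fun i => ‖C i‖) univ
    simp only [powerset_univ, ← compl_eq_univ_sdiff] at e1
    calc ‖∑ S ∈ low q ∅ y, (∏ i ∈ S, (A i - C i)) * ∏ i ∈ Sᶜ, C i‖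
        ≤ ∑ S ∈ low q ∅ y, (∏ i ∈ S, ‖A i - C i‖) * ∏ i ∈ Sᶜ, ‖C i‖ := by
          refine (norm_sum_le _ _).trans (le_of_eq (sum_congr rfl fun S _ => ?_))
          rw [norm_mul, norm_prod, norm_prod]
      _ ≤ ∑ S : Finset ι, (∏ i ∈ S, ‖A i - C i‖) * ∏ i ∈ Sᶜ, ‖C i‖ :=
          sum_le_sum_of_subset_of_nonneg (subset_univ _) fun S _ _ => by positivity
      _ = ∏ i ∈ T, (‖A i - C i‖ + ‖C i‖) := by
          rw [← e1]
          refine (prod_subset (subset_univ T) fun i _ hi => ?_).symm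
          rw [(h1 i hi).1, (h1 i hi).2.1]; simp
      _ ≤ ∏ i ∈ T, (q i : ℝ) ^ (-δ) := by
          refine prod_le_prod (fun i _ => by positivity) fun i hi => ?_
          linarith [norm_sub_le (A i) (C i), h3 i hi]
      _ = (qq q T : ℝ) ^ (-δ) := by
          rw [Real.finsetProd_rpow _ _ (fun i _ => by positivity)]; simp [qq]
      _ ≤ y ^ (-δ) := Real.rpow_le_rpow_of_nonpos hy (not_le.mp hT).le (by linarith)

variable (q : ι → ℕ) [∀ i, NeZero (q i)]

/-- the weight `θ_S` on the variable of the polynomial -/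
noncomputable def th (π io : ∀ i, ZMod (q i) → ℝ) (S : Finset ι) (m : ℤ) : ℂ :=
  ∏ i ∈ S, ((π i (m : ZMod (q i)) / io i (m : ZMod (q i)) - 1 : ℝ) : ℂ)

/-- the Efron–Stein part `κ_S` of the model kernel -/
noncomputable def ka (P : ℤ[X]) (π : ∀ i, ZMod (q i) → ℝ) (S : Finset ι) (t : ℤ) : ℂ :=
  ∏ i ∈ S, ((push (q i) P (π i) (t : ZMod (q i)) - 1 : ℝ) : ℂ)

/-- the local density of the weight modulo `Q` -/
noncomputable def dens (io : ∀ i, ZMod (q i) → ℝ) (Q : ℕ) (m : ℤ) : ℂ :=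
  ∏ i ∈ univ.filter (fun i => q i ∣ Q), (io i (m : ZMod (q i)) : ℂ)

/-- the local hypotheses -/
structure LD (P : ℤ[X]) (π io : ∀ i, ZMod (q i) → ℝ) (δ : ℝ) : Prop where
  prime : ∀ i, (q i).Prime
  inj : Function.Injective q
  pi_nonneg : ∀ i n, 0 ≤ π i n
  pi_sum : ∀ i, ∑ n, π i n = q i
  io_sum : ∀ i, ∑ n, io i n = q i
  io_one : ∀ i n, io i n = 0 ∨ 1 ≤ io i n
  supp : ∀ i n, π i n ≠ 0 → io i n ≠ 0 ∧ evz (q i) (derivative P) n ≠ 0
  bound : ∀ i (j : ℕ) (a : ℤ), 1 ≤ j → ¬ (q i : ℤ) ∣ a →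
    ‖mean (q i ^ (j + 1)) (fun m => (π i (m : ZMod (q i)) : ℂ) * ch a (q i ^ j) (P.eval m))‖ +
      2 * ‖mean (q i ^ (j + 1))
        (fun m => (io i (m : ZMod (q i)) : ℂ) * ch a (q i ^ j) (P.eval m))‖ ≤ (q i : ℝ) ^ (-δ)

variable {q}

omit [Fintype ι] [DecidableEq ι] [∀ i, NeZero (q i)] in
lemma per_th (π io : ∀ i, ZMod (q i) → ℝ) (S : Finset ι) : Per (qq q S) (th q π io S) :=
  per_prod S fun i hi => (per_zmod (q i) fun x => ((π i x / io i x - 1 : ℝ) : ℂ)).mono
    (dvd_prod_of_mem _ hi)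

omit [Fintype ι] [DecidableEq ι] in
lemma per_ka (P : ℤ[X]) (π : ∀ i, ZMod (q i) → ℝ) (S : Finset ι) : Per (qq q S) (ka q P π S) :=
  per_prod S fun i hi => (per_zmod (q i) fun x => ((push (q i) P (π i) x - 1 : ℝ) : ℂ)).mono
    (dvd_prod_of_mem _ hi)

omit [DecidableEq ι] [∀ i, NeZero (q i)] in
lemma per_dens (io : ∀ i, ZMod (q i) → ℝ) (Q N : ℕ) (h : ∀ i, q i ∣ Q → q i ∣ N) :
    Per N (dens q io Q) :=
  per_prod _ fun i hi => (per_zmod (q i) fun x => (io i x : ℂ)).mono (h i (mem_filter.mp hi).2)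

omit [Fintype ι] [DecidableEq ι] [∀ i, NeZero (q i)] in
lemma qq_ne_zero (hq : ∀ i, (q i).Prime) (S : Finset ι) : qq q S ≠ 0 :=
  prod_ne_zero_iff.mpr fun i _ => (hq i).ne_zero

omit [Fintype ι] [DecidableEq ι] [∀ i, NeZero (q i)] in
lemma prime_dvd_qq (hq : ∀ i, (q i).Prime) {l : ℕ} (hl : l.Prime) {S : Finset ι}
    (h : l ∣ qq q S) : ∃ i ∈ S, q i = l := by
  obtain ⟨i, hi, hli⟩ := (Nat.Prime.prime hl).dvd_finsetProd_iff _ |>.mp h
  exact ⟨i, hi, ((Nat.prime_dvd_prime_iff_eq hl (hq i)).mp hli).symm⟩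

omit [DecidableEq ι] [∀ i, NeZero (q i)] in
lemma eq_prod_pow (hinj : Function.Injective q) {q₀ : ℕ} (h0 : q₀ ≠ 0)
    (h : ∀ l : ℕ, l.Prime → l ∣ q₀ → l ∈ Set.range q) :
    q₀ = ∏ i, q i ^ q₀.factorization (q i) := by
  conv_lhs => rw [← Nat.prod_factorization_pow_eq_self h0]
  rw [← prod_image (s := univ) (g := q) (f := fun l => l ^ q₀.factorization l)
    (fun i _ j _ hij => hinj hij), Finsupp.prod]
  refine prod_subset (fun l hl => ?_) fun l _ hl => ?_
  · have hl' := Nat.support_factorization q₀ ▸ hl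
    obtain ⟨i, hi⟩ := h l (Nat.prime_of_mem_primeFactors hl') (Nat.dvd_of_mem_primeFactors hl')
    exact mem_image.mpr ⟨i, mem_univ _, hi⟩
  · rw [Finsupp.notMem_support_iff.mp hl, pow_zero]

omit [Fintype ι] [DecidableEq ι] in
lemma mean_eq_one {i : ι} {f : ZMod (q i) → ℝ} (hf : ∑ n, f n = q i) {Q : ℕ} (hQ : Q ≠ 0)
    (hd : q i ∣ Q) : mean Q (fun m => (f (m : ZMod (q i)) : ℂ)) = 1 := by
  rw [(per_zmod (q i) fun x => (f x : ℂ)).mean_dvd hd hQ, mean_zmod (q i) fun x => (f x : ℂ)]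
  have : (q i : ℂ) ≠ 0 := by exact_mod_cast NeZero.ne (q i)
  rw [← Complex.ofReal_sum, hf]
  simp [this]

omit [Fintype ι] [DecidableEq ι] in
lemma LD.A_eq {P : ℤ[X]} {π io : ∀ i, ZMod (q i) → ℝ} {δ : ℝ} (h : LD q P π io δ) (i : ι) (j : ℕ)
    (b : ℤ) (hb : IsCoprime b ((q i ^ j : ℕ) : ℤ)) :
    mean (q i ^ (j + 1)) (fun t => (push (q i) P (π i) (t : ZMod (q i)) : ℂ) * ch b (q i ^ j) t) =
    mean (q i ^ (j + 1)) (fun m => (π i (m : ZMod (q i)) : ℂ) * ch b (q i ^ j) (P.eval m)) := by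
  have hp := h.prime i
  have hQ : q i ^ (j + 1) ≠ 0 := pow_ne_zero _ hp.ne_zero
  have hd : q i ∣ q i ^ (j + 1) := dvd_pow_self _ (by omega)
  rcases le_or_gt j 1 with hj | hj
  · have hper : Per (q i) (ch b (q i ^ j)) :=
      (per_ch b _).mono (by simpa using pow_dvd_pow (q i) hj)
    rw [((per_zmod (q i) fun x => (push (q i) P (π i) x : ℂ)).mul hper).mean_dvd hd hQ,
      ((per_zmod (q i) fun x => (π i x : ℂ)).mul (hper.poly P)).mean_dvd hd hQ]
    exact mean_push (q i) P (π i) hper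
  · have hb' : ¬ (q i : ℤ) ∣ b := fun hd' => by
      have := hb.isUnit_of_dvd' hd' (by push_cast; exact dvd_pow_self _ (by omega))
      exact (Nat.prime_iff_prime_int.mp hp).not_isUnit this
    have e1 := hensel hp hj (pow_dvd_pow (q i) (Nat.le_succ j)) hb' X
      (per_zmod (q i) fun x => (push (q i) P (π i) x : ℂ)) (fun m _ hd' => by
        simp only [derivative_X, eval_one] at hd'
        exact (Nat.prime_iff_prime_int.mp hp).not_dvd_one hd')
    simp only [eval_X] at e1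
    rw [e1, hensel hp hj (pow_dvd_pow (q i) (Nat.le_succ j)) hb' P
      (per_zmod (q i) fun x => (π i x : ℂ)) (fun m hm hd' => by
        refine (h.supp i (m : ZMod (q i)) (by exact_mod_cast hm)).2 ?_
        rw [evz_intCast, ZMod.intCast_zmod_eq_zero_iff_dvd]; exact hd')]

/-- **Comparison of the singular series.** -/
theorem LD.sing {P : ℤ[X]} {π io : ∀ i, ZMod (q i) → ℝ} {δ : ℝ} (h : LD q P π io δ)
    {y : ℝ} (hy : 0 < y) (hδ : 0 ≤ δ) {q₀ : ℕ} (h0 : q₀ ≠ 0) {a : ℤ} (ha : IsCoprime a q₀)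
    (hs : ∀ l : ℕ, l.Prime → l ∣ q₀ → l ∉ Set.range q →
      ¬ (l : ℤ) ∣ P.coeff 1 ∧ ∀ j, 2 ≤ j → (l : ℤ) ∣ P.coeff j) :
    ‖∑ S ∈ low q ∅ y, mean (q₀ * qq q S)
        (fun m => (th q π io S m * ch a q₀ (P.eval m)) * dens q io (q₀ * qq q S) m) -
      ∑ S ∈ low q ∅ y, mean (q₀ * qq q S) (fun t => (ka q P π S t * ch a q₀ t) * 1)‖ ≤
      y ^ (-δ) := by
  have hp := h.prime
  have hper1 : ∀ S, Per (q₀ * qq q S)
      (fun m => (th q π io S m * ch a q₀ (P.eval m)) * dens q io (q₀ * qq q S) m) := fun S =>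
    (((per_th π io S).mono (Dvd.intro_left _ rfl)).mul
      (((per_ch a q₀).mono (Dvd.intro _ rfl)).poly P)).mul (per_dens io _ _ fun _ hi => hi)
  have hper2 : ∀ S, Per (q₀ * qq q S) (fun t => (ka q P π S t * ch a q₀ t) * 1) := fun S =>
    (((per_ka P π S).mono (Dvd.intro_left _ rfl)).mul
      ((per_ch a q₀).mono (Dvd.intro _ rfl))).mul (per_const _ _)
  have hSu : ∀ S, qq q S ∣ qq q univ := fun S => prod_dvd_prod_of_subset _ _ _ (subset_univ S)
  by_cases hl : ∃ l : ℕ, l.Prime ∧ l ∣ q₀ ∧ l ∉ Set.range q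
  · obtain ⟨l, hl1, hl2, hl3⟩ := hl
    have hla : ¬ (l : ℤ) ∣ a := fun hd => (Nat.prime_iff_prime_int.mp hl1).not_isUnit
      (ha.isUnit_of_dvd' hd (Int.natCast_dvd_natCast.mpr hl2))
    have hlN : ¬ l ∣ qq q univ := fun hd => by
      obtain ⟨i, _, hi⟩ := prime_dvd_qq hp hl1 hd
      exact hl3 ⟨i, hi⟩
    rw [sum_eq_zero fun S _ => ?_, sum_eq_zero fun S _ => ?_, sub_zero, norm_zero]
    · positivity
    · have := small_vanish (Q := q₀ * qq q S) hl1 h0 hl2 hla hlN X (by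
        simpa using (Nat.prime_iff_prime_int.mp hl1).not_dvd_one) (fun j hj => by
          rw [coeff_X, if_neg (by omega)]; simp) ((per_ka P π S).mono (hSu S))
          (by simpa using hper2 S)
      simpa using this
    · have := small_vanish (Q := q₀ * qq q S) hl1 h0 hl2 hla hlN P (hs l hl1 hl2 hl3).1
        (hs l hl1 hl2 hl3).2 (((per_th π io S).mono (hSu S)).mul
          (per_dens io (q₀ * qq q S) _ fun i _ => dvd_prod_of_mem _ (mem_univ i)))
          (by simpa only [mul_right_comm] using hper1 S)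
      simpa only [mul_right_comm] using this
  push Not at hl
  set j : ι → ℕ := fun i => q₀.factorization (q i) with hj
  have hq₀ : q₀ = ∏ i, q i ^ j i := eq_prod_pow h.inj h0 hl
  have hcop : ∀ (u : ι → ℕ), ∀ i ∈ (univ : Finset ι), ∀ i' ∈ (univ : Finset ι), i ≠ i' →
      (q i ^ u i).Coprime (q i' ^ u i') := fun u i _ i' _ hne =>
    Nat.Coprime.pow _ _ ((Nat.coprime_primes (hp i) (hp i')).mpr fun he => hne (h.inj he))
  obtain ⟨b, hb1, hb2⟩ := ch_factor univ (fun i => q i ^ j i)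
    (fun i _ => pow_ne_zero _ (hp i).ne_zero) (hcop j) a (by rw [← hq₀]; exact ha)
  rw [← hq₀] at hb2
  have hN : ∏ i, q i ^ (j i + 1) = q₀ * qq q univ := by
    simp only [pow_succ, prod_mul_distrib]; rw [← hq₀]; rfl
  have hN0 : ∏ i, q i ^ (j i + 1) ≠ 0 := by rw [hN]; exact mul_ne_zero h0 (qq_ne_zero hp _)
  have hNd : ∀ S, q₀ * qq q S ∣ ∏ i, q i ^ (j i + 1) := fun S => by
    rw [hN]; exact Nat.mul_dvd_mul_left _ (hSu S)
  have hjd : ∀ i, q i ∣ q₀ ↔ j i ≠ 0 := fun i => by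
    rw [(hp i).dvd_iff_one_le_factorization h0]; simp only [hj]; omega
  have hpow : ∀ i, q i ^ (j i + 1) ≠ 0 := fun i => pow_ne_zero _ (hp i).ne_zero
  have hdv : ∀ i, q i ∣ q i ^ (j i + 1) := fun i => dvd_pow_self _ (by omega)
  have hch : ∀ i, Per (q i ^ (j i + 1)) (ch (b i) (q i ^ j i)) := fun i =>
    (per_ch _ _).mono (pow_dvd_pow _ (by omega))
  set A : ι → ℂ := fun i => mean (q i ^ (j i + 1))
    (fun m => (π i (m : ZMod (q i)) : ℂ) * ch (b i) (q i ^ j i) (P.eval m)) with hA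
  set C : ι → ℂ := fun i => mean (q i ^ (j i + 1))
    (fun m => (io i (m : ZMod (q i)) : ℂ) * ch (b i) (q i ^ j i) (P.eval m)) with hC
  set C' : ι → ℂ := fun i => mean (q i ^ (j i + 1)) (ch (b i) (q i ^ j i)) with hC'
  have hbd : ∀ i, j i ≠ 0 → ¬ (q i : ℤ) ∣ b i := fun i hi hd' =>
    (Nat.prime_iff_prime_int.mp (hp i)).not_isUnit
      ((hb1 i (mem_univ i)).isUnit_of_dvd' hd' (by push_cast; exact dvd_pow_self _ hi))
  have hC1 : ∀ i, j i = 0 → C i = 1 := fun i hi => by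
    simp only [hC, hi, pow_zero, ch_one, mul_one]
    exact mean_eq_one (h.io_sum i) (pow_ne_zero _ (hp i).ne_zero) (dvd_pow_self _ (by omega))
  have e1 : ∀ S, mean (q₀ * qq q S)
      (fun m => (th q π io S m * ch a q₀ (P.eval m)) * dens q io (q₀ * qq q S) m) =
      (∏ i ∈ S, (A i - C i)) * ∏ i ∈ Sᶜ, C i := by
    intro S
    set f : ι → ℤ → ℂ := fun i m => (if i ∈ S then (π i (m : ZMod (q i)) - io i (m : ZMod (q i)) : ℂ)
      else if j i = 0 then 1 else io i (m : ZMod (q i))) * ch (b i) (q i ^ j i) (P.eval m) with hf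
    have hfe : (fun m => (th q π io S m * ch a q₀ (P.eval m)) * dens q io (q₀ * qq q S) m) =
        fun m => ∏ i, f i m := by
      funext m
      rw [hb2, th, dens, prod_filter, ← Fintype.prod_ite_mem S, ← prod_mul_distrib,
        ← prod_mul_distrib]
      refine prod_congr rfl fun i _ => ?_
      simp only [hf]
      by_cases hi : i ∈ S
      · rw [if_pos hi, if_pos hi, if_pos (Dvd.dvd.mul_left (dvd_prod_of_mem _ hi) _),
          mul_right_comm]
        congr 1
        by_cases h1 : io i (m : ZMod (q i)) = 0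
        · have h2 : π i (m : ZMod (q i)) = 0 := by
            by_contra h2; exact (h.supp i _ h2).1 h1
          simp [h1, h2]
        · have : (io i (m : ZMod (q i)) : ℂ) ≠ 0 := by exact_mod_cast h1
          push_cast; field_simp
      · rw [if_neg hi, if_neg hi, one_mul, mul_comm]
        congr 1
        by_cases h1 : j i = 0
        · rw [if_pos h1, if_neg]
          intro hd
          rcases ((hp i).dvd_mul).mp hd with h2 | h2
          · exact (hjd i).mp h2 h1
          · obtain ⟨i', hi', he⟩ := prime_dvd_qq hp (hp i) h2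
            exact hi (h.inj he ▸ hi')
        · rw [if_neg h1, if_pos (Dvd.dvd.mul_right ((hjd i).mpr h1) _)]
    rw [← (hper1 S).mean_dvd (hNd S) hN0, hfe, mean_prod univ _ f (fun i _ => hpow i)
      (hcop fun i => j i + 1) (fun i _ => ((per_zmod (q i) fun x => if i ∈ S then
        (π i x - io i x : ℂ) else if j i = 0 then 1 else io i x).mono (hdv i)).mul
          ((hch i).poly P)), ← prod_mul_prod_compl S]
    congr 1
    · refine prod_congr rfl fun i hi => ?_
      simp only [hf, if_pos hi, sub_mul, hA, hC]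
      exact mean_sub _ _ _
    · refine prod_congr rfl fun i hi => ?_
      simp only [hf, if_neg (mem_compl.mp hi)]
      by_cases h1 : j i = 0
      · rw [hC1 i h1]
        simp only [h1, if_true, pow_zero, ch_one, mul_one]
        exact mean_const (pow_ne_zero _ (hp i).ne_zero) 1
      · simp only [if_neg h1, hC]
  have e2 : ∀ S, mean (q₀ * qq q S) (fun t => (ka q P π S t * ch a q₀ t) * 1) =
      (∏ i ∈ S, (A i - C' i)) * ∏ i ∈ Sᶜ, C' i := by
    intro S
    set f : ι → ℤ → ℂ := fun i t => (if i ∈ S then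
      (push (q i) P (π i) (t : ZMod (q i)) - 1 : ℂ) else 1) * ch (b i) (q i ^ j i) t with hf
    have hfe : (fun t => (ka q P π S t * ch a q₀ t) * 1) = fun m => ∏ i, f i m := by
      funext m
      rw [hb2, ka, ← Fintype.prod_ite_mem S, ← prod_mul_distrib, mul_one]
      refine prod_congr rfl fun i _ => ?_
      simp only [hf]
      split_ifs <;> simp
    rw [← (hper2 S).mean_dvd (hNd S) hN0, hfe, mean_prod univ _ f (fun i _ => hpow i)
      (hcop fun i => j i + 1) (fun i _ => ((per_zmod (q i) fun x => if i ∈ S then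
        (push (q i) P (π i) x - 1 : ℂ) else 1).mono (hdv i)).mul (hch i)), ← prod_mul_prod_compl S]
    congr 1
    · refine prod_congr rfl fun i hi => ?_
      simp only [hf, if_pos hi, sub_mul, one_mul, hA, hC']
      rw [mean_sub, h.A_eq i (j i) (b i) (hb1 i (mem_univ i))]
    · refine prod_congr rfl fun i hi => ?_
      simp only [hf, if_neg (mem_compl.mp hi), one_mul, hC']
  simp only [e1, e2]
  refine alg q (fun i => (hp i).one_le) hy hδ (univ.filter fun i => j i ≠ 0) A C C' ?_ ?_ ?_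
  · intro i hi
    have h1 : j i = 0 := by simpa using hi
    refine ⟨?_, hC1 i h1, ?_⟩
    · simp only [hA, h1, pow_zero, ch_one, mul_one]
      exact mean_eq_one (h.pi_sum i) (pow_ne_zero _ (hp i).ne_zero) (dvd_pow_self _ (by omega))
    · simp only [hC', h1, pow_zero]
      rw [show ch (b i) 1 = fun _ => 1 from funext fun t => ch_one _ t]
      exact mean_const (pow_ne_zero _ (hp i).ne_zero) 1
  · intro i hi
    have h1 : j i ≠ 0 := (mem_filter.mp hi).2
    simp only [hC']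
    rw [(per_ch _ _).mean_dvd (pow_dvd_pow _ (Nat.le_succ _)) (hpow i), mean,
      sum_ch (pow_ne_zero _ (hp i).ne_zero) (fun hd => hbd i h1
        (Dvd.dvd.trans (by push_cast; exact dvd_pow_self _ h1) hd)), zero_div]
  · intro i hi
    have h1 : j i ≠ 0 := (mem_filter.mp hi).2
    exact h.bound i (j i) (b i) (by omega) (hbd i h1)

end Crest.Agent.N41.Pair
end

-- ▼ part N41/Pair/Sup
section

/-!
# Row 41, Pair Lemma, part 5 (helper95): the sup norm bound (major and minor arcs), abstract form.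
-/

set_option autoImplicit false

open Finset Polynomial
open scoped BigOperators

namespace Crest.Agent.N41.Pair

open Crest.Agent.N41.Exp
open Crest.Agent.N41.ES (qq)

variable {ι : Type} [Fintype ι] [DecidableEq ι] {q : ι → ℕ}

omit [Fintype ι] [DecidableEq ι] in
lemma qq_inj (hq : ∀ i, (q i).Prime) (hinj : Function.Injective q) : Function.Injective (qq q) := by
  classical
  have h : ∀ S : Finset ι, (qq q S).primeFactors = S.image q := by
    intro S
    rw [qq, ← prod_image (s := S) (g := q) (f := fun l => l) (fun i _ j _ hij => hinj hij)]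
    exact Nat.primeFactors_prod fun l hl => by
      obtain ⟨i, _, rfl⟩ := mem_image.mp hl; exact hq i
  intro S T hST
  exact image_injective hinj (by rw [← h, ← h, hST])

lemma card_low (hq : ∀ i, (q i).Prime) (hinj : Function.Injective q) {y : ℝ} (hy : 0 ≤ y) :
    (#(low q ∅ y) : ℝ) ≤ y := by
  have h1 : #(low q ∅ y) ≤ #(Icc 1 ⌊y⌋₊) := by
    refine card_le_card_of_injOn (qq q) (fun S hS => ?_) (qq_inj hq hinj).injOn
    exact mem_coe.mpr (mem_Icc.mpr ⟨Nat.pos_of_ne_zero (qq_ne_zero hq S),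
      Nat.le_floor (mem_low.mp (mem_coe.mp hS))⟩)
  rw [Nat.card_Icc] at h1
  exact le_trans (by exact_mod_cast h1) (Nat.floor_le hy)

lemma sum_low_le (hq : ∀ i, (q i).Prime) (hinj : Function.Injective q) {y : ℝ} (hy : 0 ≤ y)
    (f : Finset ι → ℂ) {B : ℝ} (hB0 : 0 ≤ B) (hB : ∀ S, (qq q S : ℝ) ≤ y → ‖f S‖ ≤ B) :
    ‖∑ S ∈ low q ∅ y, f S‖ ≤ y * B := by
  refine (norm_sum_le _ _).trans ((sum_le_sum fun S hS => hB S (mem_low.mp hS)).trans ?_)
  rw [sum_const, nsmul_eq_mul]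
  gcongr
  exact card_low hq hinj hy

omit [Fintype ι] [DecidableEq ι] in
lemma norm_prod_le_qq (hq : ∀ i, (q i).Prime) (S : Finset ι) (f : ι → ℝ)
    (hf : ∀ i, 0 ≤ f i ∧ f i ≤ q i) : ‖∏ i ∈ S, ((f i - 1 : ℝ) : ℂ)‖ ≤ qq q S := by
  rw [norm_prod, qq, Nat.cast_prod]
  refine prod_le_prod (fun _ _ => norm_nonneg _) fun i _ => ?_
  have : (1 : ℝ) ≤ q i := by exact_mod_cast (hq i).one_le
  rw [Complex.norm_real, Real.norm_eq_abs, abs_le]
  constructor <;> linarith [(hf i).1, (hf i).2]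

variable [∀ i, NeZero (q i)] {P : ℤ[X]} {π io : ∀ i, ZMod (q i) → ℝ} {δ : ℝ}

omit [Fintype ι] [DecidableEq ι] in
lemma LD.norm_th (h : LD q P π io δ) (S : Finset ι) (m : ℤ) : ‖th q π io S m‖ ≤ qq q S := by
  refine norm_prod_le_qq h.prime S _ fun i => ?_
  have h1 : π i (m : ZMod (q i)) ≤ q i := by
    rw [← h.pi_sum i]; exact single_le_sum (fun n _ => h.pi_nonneg i n) (mem_univ _)
  have h0 := h.pi_nonneg i (m : ZMod (q i))
  rcases h.io_one i (m : ZMod (q i)) with h2 | h2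
  · rw [h2]; simp
  · exact ⟨div_nonneg h0 (by linarith), (div_le_self h0 h2).trans h1⟩

omit [Fintype ι] [DecidableEq ι] in
lemma LD.norm_ka (h : LD q P π io δ) (S : Finset ι) (t : ℤ) : ‖ka q P π S t‖ ≤ qq q S := by
  refine norm_prod_le_qq h.prime S _ fun i => ⟨sum_nonneg fun n _ => h.pi_nonneg i n, ?_⟩
  rw [← h.pi_sum i]
  exact sum_le_sum_of_subset_of_nonneg (subset_univ _) fun n _ _ => h.pi_nonneg i n

lemma norm_mean_le_const {Q : ℕ} (hQ : Q ≠ 0) (f : ℤ → ℂ) {B : ℝ} (h : ∀ m, ‖f m‖ ≤ B) :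
    ‖mean Q f‖ ≤ B := by
  refine (norm_mean_le f (fun _ => B) h).trans (le_of_eq ?_)
  have : (Q : ℝ) ≠ 0 := by exact_mod_cast hQ
  simp; field_simp

/-- major arc estimate for one periodic coefficient -/
lemma major_aux {Q : ℕ} (hQ : Q ≠ 0) {F : ℤ → ℂ} (hF : Per Q F) {B E V : ℝ}
    (hB : ∀ m, ‖F m‖ ≤ B) (z d v : ℤ → ℂ) {a b : ℤ} (hab : a ≤ b)
    (hE : ∀ ρ x : ℤ, a ≤ x → x ≤ b → ‖∑ m ∈ (Ico a x).filter (fun m => (Q : ℤ) ∣ m - ρ), z m -
      ((x : ℂ) - a) / Q * d ρ‖ ≤ E)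
    (hV : ‖v b‖ + ∑ n ∈ Ico a b, ‖v (n + 1) - v n‖ ≤ V) :
    ‖∑ m ∈ Ico a b, F m * z m * v m - mean Q (fun m => F m * d m) * ∑ m ∈ Ico a b, v m‖ ≤
      Q * B * E * V := by
  rw [mul_sum, ← sum_sub_distrib]
  simp only [← sub_mul]
  refine abel_le _ v hab (fun x h1 h2 => ?_) hV
  rw [sum_sub_distrib, sum_const, nsmul_eq_mul]
  have : ((#(Ico a x) : ℕ) : ℂ) = (x : ℂ) - a := by
    exact_mod_cast congrArg (fun z : ℝ => (z : ℂ)) (card_Ico_real h1)
  rw [this]
  exact hF.norm_sum_sub_mean hQ hB _ z d _ fun ρ => hE ρ x h1 h2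

lemma exists_reduced {α R ε : ℝ} (h : Appr α R ε) :
    ∃ (q₀ : ℕ) (a : ℤ) (β : ℝ), q₀ ≠ 0 ∧ (q₀ : ℝ) ≤ R ∧ IsCoprime a q₀ ∧ |β| ≤ ε ∧
      α = a / q₀ + β := by
  obtain ⟨n, hn1, hn2, z, hz⟩ := h
  have hn0 : (0 : ℝ) < n := by exact_mod_cast hn1
  have hn1' : (1 : ℝ) ≤ n := by exact_mod_cast hn1
  set x : ℚ := (z : ℚ) / n with hx
  have hden : x.den ∣ n := by
    have := Rat.den_dvd z n
    rw [Rat.divInt_eq_div, Int.cast_natCast, ← hx] at this
    exact Int.natCast_dvd_natCast.mp this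
  refine ⟨x.den, x.num, α - z / n, x.den_nz, le_trans (by exact_mod_cast Nat.le_of_dvd hn1 hden)
    hn2, Int.isCoprime_iff_gcd_eq_one.mpr x.reduced, ?_, ?_⟩
  · have e1 : α - z / n = (n * α - z) / n := by field_simp
    rw [e1, abs_div, abs_of_pos hn0]
    exact (div_le_self (abs_nonneg _) hn1').trans hz
  · have e1 : ((x.num : ℝ) / x.den) = (x : ℝ) := (Rat.cast_def x).symm
    rw [e1, hx]; push_cast; ring

/-- **The sup norm bound.** -/
theorem LD.sup (h : LD q P π io δ) (hδ : 0 ≤ δ) {a b : ℤ} {Δ y R R' ε E₀ E₁ : ℝ}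
    (hc : Conv (fun m => P.eval m) a b Δ) (φ : ℤ → ℂ) (hy : 1 ≤ y) (hyR : y ≤ R) (hε : 0 < ε)
    (hR' : ε * (((P.eval b : ℤ) : ℝ) - (P.eval a : ℤ)) ≤ R')
    (hs : ∀ l : ℕ, l.Prime → (l : ℝ) ≤ R → l ∉ Set.range q →
      ¬ (l : ℤ) ∣ P.coeff 1 ∧ ∀ j, 2 ≤ j → (l : ℤ) ∣ P.coeff j)
    (hE₀ : ∀ Q : ℕ, Q ≠ 0 → (Q : ℝ) ≤ R * y → ∀ ρ x : ℤ, a ≤ x → x ≤ b →
      ‖∑ m ∈ (Ico a x).filter (fun m => (Q : ℤ) ∣ m - ρ), φ m -
        ((x : ℂ) - a) / Q * dens q io Q ρ‖ ≤ E₀)
    (hE₁ : ∀ α : ℝ, ¬ Appr α R ε → ∀ Q : ℕ, Q ≠ 0 → (Q : ℝ) ≤ y → ∀ ρ x : ℤ, a ≤ x → x ≤ b →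
      ‖∑ m ∈ (Ico a x).filter (fun m => (Q : ℤ) ∣ m - ρ), φ m * e (α * (P.eval m : ℤ))‖ ≤ E₁)
    (hE₁0 : 0 ≤ E₁) (α : ℝ) :
    ‖∑ m ∈ Ico a b, (∑ S ∈ low q ∅ y, th q π io S m) * φ m * (inc (fun m => P.eval m) m : ℂ) *
        e (α * (P.eval m : ℤ)) -
      ∑ t ∈ Ico (P.eval a) (P.eval b), (∑ S ∈ low q ∅ y, ka q P π S t) * e (α * t)‖ ≤
      (((P.eval b : ℤ) : ℝ) - (P.eval a : ℤ)) * y ^ (-δ) + y * y * (Δ * (7 * R')) +
      y * (R * y * y * E₀ * (Δ * (2 + 7 * R'))) + y * (R * y * y * 1 * (1 + 7 * R')) +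
      y * (y * y * E₁ * (Δ * 2)) + y * (y * y * (1 / (2 * ε))) := by
  have hp := h.prime
  have hab := hc.le
  have hy0 : 0 < y := by linarith
  have hPab : P.eval a ≤ P.eval b := hc.P_mono le_rfl hab le_rfl
  set L : ℝ := ((P.eval b : ℤ) : ℝ) - (P.eval a : ℤ) with hL
  have hL0 : 0 ≤ L := sub_nonneg.mpr (by exact_mod_cast hPab)
  have hR'0 : 0 ≤ R' := le_trans (by positivity) hR'
  have hΔ : 0 ≤ Δ := le_trans (by exact_mod_cast hc.inc_nonneg hab le_rfl) hc.top
  have hE₀0 : 0 ≤ E₀ := (norm_nonneg _).trans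
    (hE₀ 1 one_ne_zero (by push_cast; nlinarith) 0 a le_rfl hab)
  have hR0 : 0 < R := by linarith
  simp only [sum_mul]
  rw [sum_comm, sum_comm (s := Ico (P.eval a) (P.eval b))]
  by_cases hα : Appr α R ε
  · obtain ⟨q₀, a₀, β, h0, hq₀, ha₀, hβ, rfl⟩ := exists_reduced hα
    have hβL : |β| * L ≤ R' := le_trans (by gcongr) hR'
    have he : ∀ t : ℤ, e (((a₀ : ℝ) / q₀ + β) * t) = ch a₀ q₀ t * e (β * t) := by
      intro t; unfold ch; rw [← e_add]; congr 1; ring
    set J₁ := ∑ m ∈ Ico a b, (inc (fun m => P.eval m) m : ℂ) * e (β * (P.eval m : ℤ)) with hJ₁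
    set J₂ := ∑ t ∈ Ico (P.eval a) (P.eval b), e (β * t) with hJ₂
    set M₁ : Finset ι → ℂ := fun S => mean (q₀ * qq q S)
      (fun m => (th q π io S m * ch a₀ q₀ (P.eval m)) * dens q io (q₀ * qq q S) m) with hM₁
    set M₂ : Finset ι → ℂ := fun S => mean (q₀ * qq q S)
      (fun t => (ka q P π S t * ch a₀ q₀ t) * 1) with hM₂
    have hQ : ∀ S, q₀ * qq q S ≠ 0 := fun S => mul_ne_zero h0 (qq_ne_zero hp S)
    have hQy : ∀ S, (qq q S : ℝ) ≤ y → ((q₀ * qq q S : ℕ) : ℝ) ≤ R * y := fun S hS => by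
      push_cast; gcongr
    have k1 := sum_low_le hp h.inj hy0.le (fun S => ∑ m ∈ Ico a b, th q π io S m * φ m *
      (inc (fun m => P.eval m) m : ℂ) * e (((a₀ : ℝ) / q₀ + β) * (P.eval m : ℤ)) - M₁ S * J₁)
      (B := R * y * y * E₀ * (Δ * (2 + 7 * R'))) (by positivity) (by
        intro S hS
        have := major_aux (hQ S) (((per_th π io S).mono (Dvd.intro_left _ rfl)).mul
          (((per_ch a₀ q₀).mono (Dvd.intro _ rfl)).poly P)) (B := y) (fun m => by
            rw [norm_mul, norm_ch, mul_one]; exact (h.norm_th S m).trans hS) φ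
          (dens q io (q₀ * qq q S))
          (fun m => (inc (fun m => P.eval m) m : ℂ) * e (β * (P.eval m : ℤ))) hab
          (hE₀ _ (hQ S) (hQy S hS)) (hc.var β)
        refine le_trans (le_of_eq ?_) (this.trans ?_)
        · congr 2
          exact sum_congr rfl fun m _ => by rw [he]; ring
        · gcongr
          exact hQy S hS)
    have k2 := sum_low_le hp h.inj hy0.le (fun S => ∑ t ∈ Ico (P.eval a) (P.eval b),
      ka q P π S t * e (((a₀ : ℝ) / q₀ + β) * t) - M₂ S * J₂)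
      (B := R * y * y * 1 * (1 + 7 * R')) (by positivity) (by
        intro S hS
        have := major_aux (hQ S) (((per_ka P π S).mono (Dvd.intro_left _ rfl)).mul
          ((per_ch a₀ q₀).mono (Dvd.intro _ rfl))) (B := y) (E := 1) (fun m => by
            rw [norm_mul, norm_ch, mul_one]; exact (h.norm_ka S m).trans hS) (fun _ => 1)
          (fun _ => 1) (fun t => e (β * t)) hPab (fun ρ x h1 _ => by
            have := card_class' (hQ S) h1 ρ
            rw [← Real.norm_eq_abs, ← Complex.norm_real] at this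
            simpa using this) (var_e β hPab)
        refine le_trans (le_of_eq ?_) (this.trans ?_)
        · congr 2
          exact sum_congr rfl fun m _ => by rw [he]; ring
        · gcongr
          exact hQy S hS)
    have k3 := h.sing hy0 hδ h0 ha₀ (y := y) fun l hl hd => hs l hl
      (le_trans (by exact_mod_cast Nat.le_of_dvd (Nat.pos_of_ne_zero h0) hd) hq₀)
    have k4 : ‖∑ S ∈ low q ∅ y, M₂ S‖ ≤ y * y := sum_low_le hp h.inj hy0.le M₂ hy0.le
      fun S hS => norm_mean_le_const (hQ S) _ fun m => by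
        rw [mul_one, norm_mul, norm_ch, mul_one]; exact (h.norm_ka S m).trans hS
    have k5 : ‖J₁‖ ≤ L := hc.norm_sum β
    have k6 : ‖J₁ - J₂‖ ≤ Δ * (7 * R') := (hc.arch β).trans (by gcongr)
    rw [sum_sub_distrib, ← sum_mul] at k1 k2
    change ‖∑ S ∈ low q ∅ y, M₁ S - ∑ S ∈ low q ∅ y, M₂ S‖ ≤ _ at k3
    have k7 : ‖(∑ S ∈ low q ∅ y, M₁ S) * J₁ - (∑ S ∈ low q ∅ y, M₂ S) * J₂‖ ≤
        L * y ^ (-δ) + y * y * (Δ * (7 * R')) := by
      rw [show (∑ S ∈ low q ∅ y, M₁ S) * J₁ - (∑ S ∈ low q ∅ y, M₂ S) * J₂ =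
        J₁ * (∑ S ∈ low q ∅ y, M₁ S - ∑ S ∈ low q ∅ y, M₂ S) +
          (∑ S ∈ low q ∅ y, M₂ S) * (J₁ - J₂) by ring]
      refine (norm_add_le _ _).trans ?_
      rw [norm_mul, norm_mul]
      gcongr
    have k8 : ∀ u v u' v' : ℂ, ‖u - v‖ ≤ ‖u - u'‖ + ‖v - v'‖ + ‖u' - v'‖ := fun u v u' v' => by
      rw [show u - v = (u - u') - (v - v') + (u' - v') by ring]
      exact (norm_add_le _ _).trans (by gcongr; exact norm_sub_le _ _)
    refine (k8 _ _ _ _).trans ((add_le_add (add_le_add k1 k2) k7).trans ?_)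
    have : 0 ≤ y * (y * y * E₁ * (Δ * 2)) + y * (y * y * (1 / (2 * ε))) := by positivity
    linarith
  · have k1 := sum_low_le hp h.inj hy0.le (fun S => ∑ m ∈ Ico a b, th q π io S m * φ m *
      (inc (fun m => P.eval m) m : ℂ) * e (α * (P.eval m : ℤ)))
      (B := y * y * E₁ * (Δ * 2)) (by positivity) (by
        intro S hS
        have hv := hc.var 0
        simp only [zero_mul, e_zero, mul_one, abs_zero, mul_zero, add_zero] at hv
        have := abel_le (fun m => th q π io S m * (φ m * e (α * (P.eval m : ℤ))))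
          (fun m => (inc (fun m => P.eval m) m : ℂ)) hab (E := y * y * E₁) (fun x h1 h2 =>
            ((per_th π io S).norm_sum_le (qq_ne_zero hp S) (fun m => (h.norm_th S m).trans hS) _ _
              fun ρ => hE₁ α hα _ (qq_ne_zero hp S) hS ρ x h1 h2).trans (by gcongr)) hv
        refine le_trans (le_of_eq ?_) this
        congr 1
        exact sum_congr rfl fun m _ => by ring)
    have k2 := sum_low_le hp h.inj hy0.le (fun S => ∑ t ∈ Ico (P.eval a) (P.eval b),
      ka q P π S t * e (α * t)) (B := y * y * (1 / (2 * ε))) (by positivity) (by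
        intro S hS
        refine ((per_ka P π S).norm_sum_le (qq_ne_zero hp S) (fun m => (h.norm_ka S m).trans hS)
          _ _ (E := 1 / (2 * ε)) fun ρ => ?_).trans (by gcongr)
        have h1 := linear_class (qq_ne_zero hp S) (P.eval a) (P.eval b) ρ α
        have h2 : ε ≤ |qq q S * α - round (qq q S * α)| := by
          by_contra h2
          exact hα ⟨qq q S, Nat.pos_of_ne_zero (qq_ne_zero hp S), hS.trans hyR, _,
            (not_le.mp h2).le⟩
        rw [le_div_iff₀ (by positivity)]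
        nlinarith [norm_nonneg (∑ t ∈ (Ico (P.eval a) (P.eval b)).filter
          (fun m => ((qq q S : ℕ) : ℤ) ∣ m - ρ), e (α * t))])
    refine (norm_sub_le _ _).trans ((add_le_add k1 k2).trans ?_)
    have : 0 ≤ L * y ^ (-δ) + y * y * (Δ * (7 * R')) +
      y * (R * y * y * E₀ * (Δ * (2 + 7 * R'))) + y * (R * y * y * 1 * (1 + 7 * R')) := by
      positivity
    linarith

end Crest.Agent.N41.Pair
end

-- ▼ part N41/Pair/Wt
section

/-!
# Row 41, Pair Lemma, part 6 (helper95): the weight of the variable and its local densities.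
-/

set_option autoImplicit false

open Finset Polynomial
open scoped BigOperators

namespace Crest.Agent.N41.Pair

/-- normalisation of the weight -/
noncomputable def cw (pr : Bool) (d : ℕ) : ℝ := if pr = true then (d.totient : ℝ) / d else 1

/-- the normalised weight of `m`: `1`, or `φ(d)/d · Λ(r + d m)` -/
noncomputable def phi (pr : Bool) (r d : ℕ) (m : ℤ) : ℂ :=
  ((cw pr d * wt pr ((r : ℤ) + d * m).toNat : ℝ) : ℂ)

/-- the local density of the weight at `p` -/
noncomputable def iot (pr : Bool) (r d p : ℕ) (n : ZMod p) : ℝ :=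
  if pr = true ∧ ¬ p ∣ d then (if (r : ZMod p) + d * n = 0 then 0 else (p : ℝ) / (p - 1)) else 1

/-- equidistribution of the weight in residue classes -/
def EqStmt (pr : Bool) : Prop :=
  ∃ δ C : ℝ, 0 < δ ∧ δ ≤ 1 / 2 ∧ 1 ≤ C ∧ ∀ (ι : Type) [Fintype ι] [DecidableEq ι] (q : ι → ℕ)
    [∀ i, NeZero (q i)] (r d Q : ℕ) (a x ρ : ℤ) (X : ℝ), (∀ i, (q i).Prime) →
    Function.Injective q → r < d → (pr = true → Nat.Coprime r d) → Q ≠ 0 →
    (∀ p : ℕ, p.Prime → p ∣ Q → p ∉ Set.range q → pr = true → p ∣ d) →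
    1 ≤ a → a ≤ x → (r : ℝ) + d * x ≤ X →
    ‖∑ m ∈ (Ico a x).filter (fun m => (Q : ℤ) ∣ m - ρ), phi pr r d m -
      ((x : ℂ) - a) / Q * dens q (fun i => iot pr r d (q i)) Q ρ‖ ≤
      C * X ^ (1 - δ) * Real.log (4 * (d * Q))

/-- the proper prime powers are negligible -/
def BadStmt (pr : Bool) : Prop :=
  ∃ C : ℝ, 1 ≤ C ∧ ∀ (r d : ℕ) (a b : ℤ) (X : ℝ), r < d → 1 ≤ a → a ≤ b → (r : ℝ) + d * b ≤ X →
    ∑ m ∈ (Ico a b).filter (fun m => pr = true ∧ ¬ ((r : ℤ) + d * m).toNat.Prime),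
      ‖phi pr r d m‖ ≤ C * √X

/-- passing from `m` to `n = r + d m` -/
lemma reindex {M : Type*} [AddCommMonoid M] {r d Q : ℕ} (hd : 1 ≤ d) (hQ : Q ≠ 0) {a x : ℤ}
    (ha : 1 ≤ a) (hx : a ≤ x) (ρ : ℤ) (g : ℕ → M) :
    ∑ m ∈ (Ico a x).filter (fun m => (Q : ℤ) ∣ m - ρ), g ((r : ℤ) + d * m).toNat =
      ∑ n ∈ (Ioc (r + d * a.toNat - 1) (r + d * x.toNat - 1)).filter
        (fun n => n ≡ r + d * (ρ % Q).toNat [MOD d * Q]), g n := by
  have hQ' : (0 : ℤ) < Q := by exact_mod_cast Nat.pos_of_ne_zero hQ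
  have hd' : (0 : ℤ) < d := by exact_mod_cast hd
  have hρ : (((ρ % Q).toNat : ℕ) : ℤ) = ρ % Q := Int.toNat_of_nonneg (Int.emod_nonneg ρ hQ'.ne')
  have hρ' := Int.mul_ediv_add_emod ρ Q
  obtain ⟨a, rfl⟩ := Int.eq_ofNat_of_zero_le (show 0 ≤ a by omega)
  obtain ⟨x, rfl⟩ := Int.eq_ofNat_of_zero_le (show 0 ≤ x by omega)
  simp only [Int.toNat_natCast]
  have ha1 : 1 ≤ d * a := Nat.mul_pos hd (by omega)
  have hx1 : 1 ≤ d * x := Nat.mul_pos hd (by omega)
  have hcast : ∀ m : ℤ, 0 ≤ m → ((((r : ℤ) + d * m).toNat : ℕ) : ℤ) = r + d * m := fun m hm =>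
    Int.toNat_of_nonneg (by positivity)
  refine sum_bij (fun m _ => ((r : ℤ) + d * m).toNat) ?_ ?_ ?_ (fun _ _ => rfl)
  · intro m hm
    obtain ⟨h1, c, hc⟩ := mem_filter.mp hm
    obtain ⟨h2, h3⟩ := mem_Ico.mp h1
    have h4 := hcast m (by omega)
    have h5 : (d : ℤ) * a ≤ d * m := by gcongr
    have h6 : (d : ℤ) * m < d * x := by gcongr
    refine mem_filter.mpr ⟨mem_Ioc.mpr ⟨?_, ?_⟩, ?_⟩
    · zify [show 1 ≤ r + d * a by omega]; omega
    · zify [show 1 ≤ r + d * x by omega]; omega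
    · rw [Nat.modEq_iff_dvd, h4]
      push_cast
      rw [hρ]
      exact ⟨-(ρ / Q) - c, by linear_combination (d : ℤ) * hρ' - d * hc⟩
  · intro m hm m' hm' he
    have h1 := hcast m (by have := (mem_Ico.mp (mem_filter.mp hm).1).1; omega)
    have h2 := hcast m' (by have := (mem_Ico.mp (mem_filter.mp hm').1).1; omega)
    rw [he, h2] at h1
    exact (mul_left_cancel₀ hd'.ne' (add_left_cancel h1)).symm
  · intro n hn
    obtain ⟨h1, h2⟩ := mem_filter.mp hn
    obtain ⟨h3, h4⟩ := mem_Ioc.mp h1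
    rw [Nat.modEq_iff_dvd] at h2
    push_cast at h2
    rw [hρ] at h2
    obtain ⟨c, hc⟩ := h2
    have hn' : (n : ℤ) = r + d * (ρ % Q - Q * c) := by linear_combination -hc
    have h5 : (r : ℤ) + d * a ≤ n := by exact_mod_cast (show r + d * a ≤ n by omega)
    have h6 : (n : ℤ) < r + d * x := by exact_mod_cast (show n < r + d * x by omega)
    refine ⟨ρ % Q - Q * c, mem_filter.mpr ⟨mem_Ico.mpr ⟨?_, ?_⟩,
      ⟨-(ρ / Q) - c, by linear_combination hρ'⟩⟩, ?_⟩
    · exact le_of_mul_le_mul_left (by linarith) hd'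
    · exact lt_of_mul_lt_mul_left (by linarith) hd'.le
    · rw [← hn']; simp

end Crest.Agent.N41.Pair
end

-- ▼ part N41/Pair/Inst
section

/-!
# Row 41, Pair Lemma, part 7 (helper95): the concrete local data, the truncated kernel, the pair
sum with an exceptional set, and the minor arc input.
-/

set_option autoImplicit false

open Finset Polynomial
open scoped BigOperators

namespace Crest.Agent.N41.Pair

open Crest.Agent.N41.Exp
open Crest.Agent.N41.ES (qq es avg proj red)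

lemma es_prod {ι : Type} [Fintype ι] [DecidableEq ι] {V : ι → Type} [∀ i, Fintype (V i)]
    [∀ i, Nonempty (V i)] (f : ∀ i, V i → ℝ) (hf : ∀ i, 𝔼 t, f i t = 1) (T : Finset ι)
    (x : ∀ i, V i) : es T (fun z => ∏ i, f i (z i)) x = ∏ i ∈ T, (f i (x i) - 1) := by
  have h1 : ∀ U : Finset ι, avg Uᶜ (fun z => ∏ i, f i (z i)) x = ∏ i ∈ U, f i (x i) := by
    intro U
    have := ES.expect_prod (V := V) fun i t => if i ∈ U then f i (x i) else f i t
    unfold avg
    rw [← Fintype.prod_ite_mem U]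
    refine Eq.trans (expect_congr rfl fun y _ => prod_congr rfl fun i _ => ?_)
      (this.trans (prod_congr rfl fun i _ => ?_))
    · by_cases hi : i ∈ U <;> simp [Finset.piecewise, hi]
    · by_cases hi : i ∈ U
      · simp only [hi, if_true]; exact expect_const univ_nonempty _
      · simp only [hi, if_false]; exact hf i
  simp only [es, h1, sub_eq_add_neg]
  rw [prod_add]
  exact sum_congr rfl fun U _ => by rw [prod_const, mul_comm]

lemma proj_eq_ka {ι : Type} [Fintype ι] [DecidableEq ι] (q : ι → ℕ) [∀ i, NeZero (q i)]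
    (P : ℤ[X]) (π : ∀ i, ZMod (q i) → ℝ) (hπ : ∀ i, 𝔼 n, π i n = 1) (F : Finset (Finset ι))
    (t : ℤ) : ((proj F (fun z => ∏ i, push (q i) P (π i) (z i)) (red q t) : ℝ) : ℂ) =
      ∑ S ∈ F, ka q P π S t := by
  unfold proj
  rw [Complex.ofReal_sum]
  refine sum_congr rfl fun S _ => ?_
  rw [es_prod (fun i => push (q i) P (π i)) (fun i => by
    rw [← hπ i, expect_eq_sum_div_card, expect_eq_sum_div_card]
    congr 1
    exact sum_fiberwise univ (evz (q i) P) (π i)), Complex.ofReal_prod]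
  rfl

/-- pair sums with an exceptional set -/
lemma pair_abs (I : Finset ℤ) (P : ℤ → ℤ) (W K : ℤ → ℂ) (u v : ℤ) (A B : Finset ℤ)
    (bad : ℤ → Prop) [DecidablePred bad] {H E : ℝ}
    (hH : ∀ α : ℝ, ‖∑ m ∈ I, W m * e (α * P m) - ∑ t ∈ Ico u v, K t * e (α * t)‖ ≤ H)
    (hAB : ∀ x ∈ A, ∀ y ∈ B, u ≤ y - x ∧ y - x < v)
    (hno : ∀ x ∈ A, ∀ y ∈ B, ∀ m ∈ I, ¬ bad m → y - x ≠ P m)
    (hE : ∑ m ∈ I.filter bad, ‖W m‖ ≤ E) :
    ‖∑ x ∈ A, ∑ y ∈ B, K (y - x)‖ ≤ H * ((#A + #B) / 2) + #A * E := by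
  classical
  set Y : ℤ → ℂ := fun t => ∑ m ∈ I.filter (fun m => P m = t), W m with hY
  set s := Ico u v ∪ I.image P with hs
  have h1 := pair_le (fun t => Y t - if t ∈ Ico u v then K t else 0) s A B (by
    intro t ht
    rw [hs, mem_union, not_or] at ht
    simp only [if_neg ht.1, sub_zero, hY]
    exact sum_eq_zero fun m hm => absurd
      (mem_image.mpr ⟨m, (mem_filter.mp hm).1, (mem_filter.mp hm).2⟩) ht.2) (H := H) (by
    intro α
    refine le_trans (le_of_eq ?_) (hH α)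
    simp only [sub_mul, sum_sub_distrib, ite_mul, zero_mul]
    congr 2
    · rw [← sum_fiberwise_of_maps_to (s := I) (t := s) (g := P)
        (fun m hm => mem_union_right _ (mem_image_of_mem P hm))]
      refine sum_congr rfl fun t _ => ?_
      rw [hY, sum_mul]
      exact sum_congr rfl fun m hm => by rw [(mem_filter.mp hm).2]
    · rw [← sum_filter, filter_mem_eq_inter, inter_eq_right.mpr subset_union_left])
  have h2 : ∑ x ∈ A, ∑ y ∈ B, K (y - x) = ∑ x ∈ A, ∑ y ∈ B, Y (y - x) -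
      ∑ x ∈ A, ∑ y ∈ B, (Y (y - x) - if y - x ∈ Ico u v then K (y - x) else 0) := by
    rw [← sum_sub_distrib]
    refine sum_congr rfl fun x hx => ?_
    rw [← sum_sub_distrib]
    refine sum_congr rfl fun y hy => ?_
    rw [if_pos (mem_Ico.mpr (hAB x hx y hy))]; ring
  have h3 : ∀ x ∈ A, ‖∑ y ∈ B, Y (y - x)‖ ≤ E := by
    intro x hx
    have e1 : ∑ y ∈ B, Y (y - x) = ∑ m ∈ I.filter (fun m => x + P m ∈ B), W m := by
      rw [← sum_fiberwise_of_maps_to (s := I.filter (fun m => x + P m ∈ B)) (t := B)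
        (g := fun m => x + P m) (fun m hm => (mem_filter.mp hm).2)]
      refine sum_congr rfl fun y hy => sum_congr ?_ fun _ _ => rfl
      ext m
      simp only [mem_filter]
      constructor
      · rintro ⟨h1, h2⟩
        exact ⟨⟨h1, by rw [h2]; simpa using hy⟩, by omega⟩
      · rintro ⟨⟨h1, _⟩, h2⟩
        exact ⟨h1, by omega⟩
    rw [e1]
    refine (norm_sum_le _ _).trans (le_trans
      (sum_le_sum_of_subset_of_nonneg (fun m hm => ?_) fun _ _ _ => norm_nonneg _) hE)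
    obtain ⟨h4, h5⟩ := mem_filter.mp hm
    refine mem_filter.mpr ⟨h4, ?_⟩
    by_contra hb
    exact hno x hx _ h5 m h4 hb (by ring)
  rw [h2, add_comm]
  refine (norm_sub_le _ _).trans (add_le_add ?_ h1)
  refine (norm_sum_le _ _).trans ((sum_le_sum h3).trans (le_of_eq ?_))
  rw [sum_const, nsmul_eq_mul]

lemma iot_facts (pr : Bool) (r d : ℕ) {p : ℕ} [NeZero p] (hp : p.Prime) :
    ∑ n, iot pr r d p n = p ∧ (∀ n, iot pr r d p n = 0 ∨ 1 ≤ iot pr r d p n) ∧
      (∀ n, |iot pr r d p n| ≤ 2) ∧ ∑ n, |iot pr r d p n - 1| ≤ 2 := by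
  have : Fact p.Prime := ⟨hp⟩
  have hp2 : (2 : ℝ) ≤ p := by exact_mod_cast hp.two_le
  have hp1 : (0 : ℝ) < p - 1 := by linarith
  have h1 : (1 : ℝ) ≤ p / (p - 1) := by rw [le_div_iff₀ hp1]; linarith
  have h2 : (p : ℝ) / (p - 1) ≤ 2 := by rw [div_le_iff₀ hp1]; linarith
  by_cases h : pr = true ∧ ¬ p ∣ d
  · have hd : (d : ZMod p) ≠ 0 := fun h0 => h.2 ((ZMod.natCast_eq_zero_iff _ _).mp h0)
    have e1 : ∀ n : ZMod p, iot pr r d p n =
        if n = -(r : ZMod p) / d then 0 else (p : ℝ) / (p - 1) := by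
      intro n
      unfold iot
      rw [if_pos h]
      refine if_congr ?_ rfl rfl
      rw [eq_div_iff hd]
      constructor <;> intro h <;> linear_combination h
    have e2 : ∀ u v : ℝ, ∑ n : ZMod p, (if n = -(r : ZMod p) / d then u else v) =
        u + (p - 1) * v := by
      intro u v
      have : ∀ n : ZMod p, (if n = -(r : ZMod p) / d then u else v) =
          v + if n = -(r : ZMod p) / d then u - v else 0 := fun n => by split_ifs <;> ring
      simp only [this, sum_add_distrib, sum_const, card_univ, ZMod.card, sum_ite_eq', mem_univ,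
        if_true, nsmul_eq_mul]
      ring
    simp only [e1]
    refine ⟨by rw [e2]; field_simp; ring, fun n => ?_, fun n => ?_, ?_⟩
    · split_ifs
      · exact Or.inl rfl
      · exact Or.inr h1
    · split_ifs
      · simp
      · rw [abs_of_nonneg (by linarith)]; exact h2
    · simp only [ite_sub, apply_ite abs]
      rw [e2, abs_of_nonneg (sub_nonneg.mpr h1)]
      refine le_of_eq ?_
      field_simp; norm_num
  · have e1 : ∀ n : ZMod p, iot pr r d p n = 1 := fun n => by unfold iot; rw [if_neg h]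
    simp [e1]

/-- the local hypotheses hold -/
theorem ld_of (hC : CompleteStmt) (k : ℕ) {κ : ℝ} (hκ : 0 < κ) : ∃ (p₀ : ℕ) (δ : ℝ), 0 < δ ∧
    δ ≤ 1 ∧ ∀ (pr : Bool) (ι : Type) (q : ι → ℕ) [∀ i, NeZero (q i)] (P : ℤ[X]) (r d : ℕ)
      (π : ∀ i, ZMod (q i) → ℝ), (∀ i, (q i).Prime) → Function.Injective q → (∀ i, p₀ < q i) →
      P.natDegree ≤ k → (∀ i, ∃ j, 1 ≤ j ∧ ¬ (q i : ℤ) ∣ P.coeff j) → (∀ i n, 0 ≤ π i n) →
      (∀ i, 𝔼 n, π i n = 1) → (∀ i n, π i n ≠ 0 → n ∈ adm pr (q i) r d P) →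
      (∀ i, OpBd (push (q i) P (π i)) ((q i : ℝ) ^ (-κ))) →
      LD q P π (fun i => iot pr r d (q i)) δ := by
  obtain ⟨δ₁, p₁, hδ₁, hC⟩ := hC k
  set δ : ℝ := min κ (min δ₁ 1) / 2 with hδ
  have hδ0 : 0 < δ := by positivity
  have hδκ : 2 * δ ≤ κ := by rw [hδ]; linarith [min_le_left κ (min δ₁ 1)]
  have hδ1 : 2 * δ ≤ δ₁ := by
    rw [hδ]; linarith [min_le_right κ (min δ₁ 1), min_le_left δ₁ 1]
  have hδ2 : 2 * δ ≤ 1 := by
    rw [hδ]; linarith [min_le_right κ (min δ₁ 1), min_le_right δ₁ 1]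
  refine ⟨max p₁ (max k ⌈(8 + 4 * k : ℝ) ^ (1 / δ)⌉₊), δ, hδ0, by linarith, ?_⟩
  intro pr ι q _ P r d π hp hinj hp₀ hP hc h0 h1 hadm hop
  have hsum : ∀ i, ∑ n, π i n = q i := fun i => by
    have := h1 i
    have hq : (q i : ℝ) ≠ 0 := by exact_mod_cast (hp i).ne_zero
    rw [expect_eq_sum_div_card, card_univ, ZMod.card, div_eq_iff hq, one_mul] at this
    exact this
  have hsupp : ∀ i n, π i n ≠ 0 →
      iot pr r d (q i) n ≠ 0 ∧ evz (q i) (derivative P) n ≠ 0 := by
    intro i n hn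
    obtain ⟨h2, h3⟩ := (mem_filter.mp (hadm i n hn)).2
    refine ⟨?_, h2⟩
    have hp2 : (2 : ℝ) ≤ q i := by exact_mod_cast (hp i).two_le
    unfold iot
    split_ifs with h4 h5
    · exact absurd h5 (h3 h4.1)
    · exact (div_pos (by linarith) (by linarith)).ne'
    · exact one_ne_zero
  refine ⟨hp, hinj, h0, hsum, fun i => (iot_facts pr r d (hp i)).1,
    fun i => (iot_facts pr r d (hp i)).2.1, hsupp, fun i j a hj ha => ?_⟩
  have hpi := hp i
  obtain ⟨hq1, hq2⟩ := max_lt_iff.mp (hp₀ i)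
  obtain ⟨hq2, hq3⟩ := max_lt_iff.mp hq2
  have hq0 : (0 : ℝ) < q i := by exact_mod_cast hpi.pos
  have hq1' : (1 : ℝ) ≤ q i := by exact_mod_cast hpi.one_le
  have hA : ‖mean (q i ^ (j + 1))
      (fun m => (π i (m : ZMod (q i)) : ℂ) * ch a (q i ^ j) (P.eval m))‖ ≤ 2 * (q i : ℝ) ^ (-κ) := by
    rcases hj.eq_or_lt with rfl | hj
    · rw [pow_one, ((per_zmod (q i) fun x => (π i x : ℂ)).mul ((per_ch a _).poly P)).mean_dvd
        (dvd_pow_self _ (by omega)) (pow_ne_zero _ hpi.ne_zero), ← mean_push (q i) P (π i)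
        (per_ch a _)]
      exact norm_fourier_le (by positivity) (hop i) ha
    · rw [hensel hpi hj (pow_dvd_pow (q i) (Nat.le_succ j)) ha P
        (per_zmod (q i) fun x => (π i x : ℂ)) (fun m hm hd' => by
          refine (hsupp i (m : ZMod (q i)) (by exact_mod_cast hm)).2 ?_
          rw [evz_intCast, ZMod.intCast_zmod_eq_zero_iff_dvd]; exact hd'), norm_zero]
      positivity
  have hσ : ‖mean (q i) (fun m => ch a (q i) (P.eval m))‖ ≤ (q i : ℝ) ^ (-δ₁) := by
    have := hC (q i) P a hpi hq1 hP (hc i) ha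
    unfold mean ch
    rw [norm_div, Complex.norm_natCast, div_le_iff₀ hq0, ← Real.rpow_add_one hq0.ne',
      show -δ₁ + 1 = 1 - δ₁ by ring]
    simpa using this
  have hC' := norm_C_le hpi hq2 hj hP (hc i) ha hσ (iot pr r d (q i))
    (iot_facts pr r d hpi).2.2.1 (iot_facts pr r d hpi).2.2.2
  have b1 : (q i : ℝ) ^ (-κ) ≤ (q i : ℝ) ^ (-(2 * δ)) :=
    Real.rpow_le_rpow_of_exponent_le hq1' (by linarith)
  have b2 : (q i : ℝ) ^ (-δ₁) ≤ (q i : ℝ) ^ (-(2 * δ)) :=
    Real.rpow_le_rpow_of_exponent_le hq1' (by linarith)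
  have b3 : (2 + 2 * k : ℝ) / q i ≤ (2 + 2 * k) * (q i : ℝ) ^ (-(2 * δ)) := by
    rw [div_eq_mul_inv, ← Real.rpow_neg_one]
    gcongr
  have b4 : (8 + 4 * k : ℝ) ≤ (q i : ℝ) ^ δ := by
    have h5 : (8 + 4 * k : ℝ) ^ (1 / δ) ≤ q i :=
      (Nat.le_ceil _).trans (by exact_mod_cast hq3.le)
    calc (8 + 4 * k : ℝ) = ((8 + 4 * k : ℝ) ^ (1 / δ)) ^ δ := by
          rw [← Real.rpow_mul (by positivity), one_div_mul_cancel hδ0.ne', Real.rpow_one]
      _ ≤ _ := by gcongr
  have b5 : (q i : ℝ) ^ δ * (q i : ℝ) ^ (-(2 * δ)) = (q i : ℝ) ^ (-δ) := by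
    rw [← Real.rpow_add hq0]; congr 1; ring
  have b6 : (0 : ℝ) ≤ (q i : ℝ) ^ (-(2 * δ)) := by positivity
  nlinarith

lemma cw_facts (pr : Bool) (d : ℕ) : 0 ≤ cw pr d ∧ cw pr d ≤ 1 := by
  unfold cw
  split_ifs
  · exact ⟨by positivity, div_le_one_of_le₀ (by exact_mod_cast Nat.totient_le d) (by positivity)⟩
  · exact ⟨zero_le_one, le_rfl⟩

/-- the minor arc input -/
lemma minor {pr : Bool} {k C : ℕ} (hW : ∀ (Q : ℝ[X]) (a b m ρ : ℕ) (X δ : ℝ), Q.natDegree ≤ k →
      1 ≤ m → 0 < δ → δ ≤ 1 / 2 → 1 ≤ X → (b : ℝ) ≤ X → δ * Real.log X ≤ 1 →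
      δ * X ≤ ‖∑ n ∈ (Ioc a b).filter fun n => n ≡ ρ [MOD m],
        (wt pr n : ℂ) * Exp.e (Q.eval (n : ℝ))‖ →
      ∃ (q : ℕ) (z : ℤ), 1 ≤ q ∧ (q : ℝ) ≤ (1 / δ) ^ C ∧
        |(q : ℝ) * Q.coeff k - z| ≤ (1 / δ) ^ C / X ^ k)
    {P : ℤ[X]} (hP : P.natDegree = k) (hl : 0 < P.leadingCoeff) {r d : ℕ} (hd : 1 ≤ d)
    {X₀ T R ε α : ℝ} (hT : 2 ≤ T) (hX : 1 ≤ X₀) (hlog : Real.log X₀ ≤ T)
    (hR : T ^ C * P.leadingCoeff ≤ R) (hε : T ^ C / X₀ ^ k * (d : ℝ) ^ k ≤ ε)
    (hα : ¬ Appr α R ε) {Q : ℕ} (hQ : Q ≠ 0) (ρ : ℤ) {a x : ℤ} (ha : 1 ≤ a) (hx : a ≤ x)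
    (hxX : (r : ℝ) + d * x ≤ X₀) :
    ‖∑ m ∈ (Ico a x).filter (fun m => (Q : ℤ) ∣ m - ρ), phi pr r d m * e (α * (P.eval m : ℤ))‖ ≤
      X₀ / T := by
  by_contra hcon
  apply hα
  have hT0 : 0 < T := by linarith
  have hd0 : (0 : ℝ) < d := by exact_mod_cast hd
  set P₁ : ℝ[X] := (P.map (Int.castRingHom ℝ)).comp (Polynomial.C (d : ℝ)⁻¹ * X) with hP₁
  have hdeg : P₁.natDegree ≤ k := by
    refine natDegree_comp_le.trans ?_
    calc _ ≤ k * 1 := Nat.mul_le_mul (natDegree_map_le.trans hP.le)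
          ((natDegree_C_mul_le _ _).trans natDegree_X_le)
      _ = k := mul_one k
  set Qt : ℝ[X] := Polynomial.C α * taylor (-(r : ℝ)) P₁ with hQt
  have hev : ∀ m : ℤ, 0 ≤ m → Qt.eval ((((r : ℤ) + d * m).toNat : ℕ) : ℝ) = α * (P.eval m : ℤ) := by
    intro m hm
    have h1 : ((((r : ℤ) + d * m).toNat : ℕ) : ℝ) = r + d * m := by
      have : ((((r : ℤ) + d * m).toNat : ℕ) : ℤ) = r + d * m := Int.toNat_of_nonneg (by positivity)
      exact_mod_cast congrArg (fun z : ℤ => (z : ℝ)) this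
    rw [h1, hQt, eval_mul, eval_C, taylor_eval, hP₁, eval_comp, eval_mul, eval_C, eval_X,
      show (d : ℝ)⁻¹ * (r + d * m + -r) = m by field_simp; ring, eval_intCast_map]
    simp
  have hco : Qt.coeff k = α * (P.leadingCoeff * (d : ℝ)⁻¹ ^ k) := by
    rw [hQt, coeff_C_mul, taylor_coeff_top hdeg, hP₁, comp_C_mul_X_coeff, coeff_map,
      leadingCoeff, hP]
    simp
  have e1 : ∑ m ∈ (Ico a x).filter (fun m => (Q : ℤ) ∣ m - ρ),
      phi pr r d m * e (α * (P.eval m : ℤ)) = (cw pr d : ℂ) *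
      ∑ m ∈ (Ico a x).filter (fun m => (Q : ℤ) ∣ m - ρ),
        (fun n : ℕ => (wt pr n : ℂ) * e (Qt.eval (n : ℝ))) ((r : ℤ) + d * m).toNat := by
    rw [mul_sum]
    refine sum_congr rfl fun m hm => ?_
    have := (mem_Ico.mp (mem_filter.mp hm).1).1
    simp only [phi]
    rw [hev m (by omega)]
    push_cast; ring
  rw [e1, reindex (r := r) hd hQ ha hx ρ (fun n : ℕ => (wt pr n : ℂ) * e (Qt.eval (n : ℝ))),
    norm_mul, Complex.norm_real, Real.norm_eq_abs,
    abs_of_nonneg (cw_facts pr d).1, not_le] at hcon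
  obtain ⟨q, z, hq1, hq2, hq3⟩ := hW Qt (r + d * a.toNat - 1) (r + d * x.toNat - 1) (d * Q)
    (r + d * (ρ % Q).toNat) X₀ (1 / T) ((natDegree_C_mul_le _ _).trans (by rwa [natDegree_taylor]))
    (Nat.mul_pos hd (Nat.pos_of_ne_zero hQ)) (by positivity) (by gcongr) hX (by
      have h1 : ((r + d * x.toNat - 1 : ℕ) : ℝ) ≤ (r + d * x.toNat : ℕ) := by
        exact_mod_cast Nat.sub_le _ _
      have h2 : ((x.toNat : ℕ) : ℝ) = x := by
        exact_mod_cast congrArg (fun z : ℤ => (z : ℝ)) (Int.toNat_of_nonneg (show 0 ≤ x by omega))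
      push_cast at h1
      rw [h2] at h1
      exact h1.trans hxX) (by rw [one_div, inv_mul_le_iff₀ hT0]; linarith) (by
      rw [one_div, inv_mul_eq_div]
      exact hcon.le.trans (mul_le_of_le_one_left (norm_nonneg _) (cw_facts pr d).2))
  rw [one_div_one_div] at hq2 hq3
  obtain ⟨c, hc⟩ := Int.eq_ofNat_of_zero_le hl.le
  have hc' : (P.leadingCoeff : ℝ) = c := by exact_mod_cast congrArg (fun z : ℤ => (z : ℝ)) hc
  refine ⟨q * c, Nat.mul_pos hq1 (by omega), ?_, z * d ^ k, ?_⟩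
  · push_cast
    rw [hc'] at hR
    exact le_trans (by gcongr) hR
  · refine le_trans (le_of_eq ?_) ((mul_le_mul_of_nonneg_right hq3 (by positivity)).trans hε)
    rw [← abs_of_pos (show (0 : ℝ) < (d : ℝ) ^ k by positivity), ← abs_mul, hco, hc']
    congr 1
    push_cast
    rw [inv_pow]
    field_simp

end Crest.Agent.N41.Pair
end

-- ▼ part N41/Pair/Main
section

/-!
# Row 41, Pair Lemma, part 8 (helper95): choice of the parameters.
-/

set_option autoImplicit false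

open Finset Polynomial
open scoped BigOperators

namespace Crest.Agent.N41.Pair

open Crest.Agent.N41.Exp
open Crest.Agent.N41.ES (qq es avg proj red)

lemma numeric {Z L M y R C G w : ℝ} (hZ : 240 ≤ Z) (hy : 1 ≤ y) (hyZ : y ≤ Z) (hC0 : 0 ≤ C)
    (hC : C ≤ Z) (hR : Z ^ 4 ≤ R) (hM : Z ^ 10 * R ^ 3 ≤ M) (hL : M ≤ L) (hG0 : 0 ≤ G)
    (hG : G ≤ 2 * Z * M / (Z ^ 10 * R ^ 3)) :
    w + y * y * (Z * L / M * (7 * (4 * R))) +
      y * (R * y * y * (C * G * (4 * (Z * (R * Z)))) * (Z * L / M * (2 + 7 * (4 * R)))) +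
      y * (R * y * y * 1 * (1 + 7 * (4 * R))) + y * (y * y * (2 * Z * M / Z ^ 10) * (Z * L / M * 2)) +
      y * (y * y * (1 / (2 * (R / L)))) ≤ w + 5 * (L / Z) ∧
    y * y * (Z * L / M) * (C * G) ≤ L / Z := by
  have hZ1 : 1 ≤ Z := by linarith
  have hZ0 : 0 < Z := by linarith
  have hR1 : 1 ≤ R := (one_le_pow₀ hZ1).trans hR
  have hR0 : 0 < R := by linarith
  have hS0 : 0 < Z ^ 10 * R ^ 3 := by positivity
  have hM0 : 0 < M := by linarith
  have hL0 : 0 < L := by linarith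
  have mono : ∀ (c : ℝ) (i j : ℕ), c ≤ Z → i + 1 ≤ 10 → j ≤ 3 →
      c * (Z ^ i * R ^ j) ≤ Z ^ 10 * R ^ 3 := by
    intro c i j hc hi hj
    calc c * (Z ^ i * R ^ j) ≤ Z * (Z ^ i * R ^ j) := by gcongr
      _ = Z ^ (i + 1) * R ^ j := by ring
      _ ≤ _ := by gcongr
  have fin : ∀ (c : ℝ) (i j : ℕ), c ≤ Z → i + 2 ≤ 10 → j ≤ 3 →
      L * (c * (Z ^ i * R ^ j)) / (Z ^ 10 * R ^ 3) ≤ L / Z := by
    intro c i j hc hi hj
    rw [div_le_div_iff₀ hS0 hZ0, mul_assoc]
    refine mul_le_mul_of_nonneg_left (le_trans (le_of_eq ?_) (mono c (i + 1) j hc hi hj)) hL0.le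
    ring
  have t2 : y * y * (Z * L / M * (7 * (4 * R))) ≤ L / Z := by
    refine le_trans ?_ (fin 28 3 1 (by linarith) (by norm_num) (by norm_num))
    calc _ ≤ Z * Z * (Z * L / (Z ^ 10 * R ^ 3) * (7 * (4 * R))) := by gcongr
      _ = _ := by ring
  have t3 : y * (R * y * y * (C * G * (4 * (Z * (R * Z)))) * (Z * L / M * (2 + 7 * (4 * R)))) ≤
      L / Z := by
    refine le_trans ?_ (fin 240 8 3 (by linarith) (by norm_num) (by norm_num))
    calc _ ≤ Z * (R * Z * Z * (Z * (2 * Z * M / (Z ^ 10 * R ^ 3)) * (4 * (Z * (R * Z)))) *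
          (Z * L / M * (2 * R + 7 * (4 * R)))) := by gcongr; linarith
      _ = _ := by field_simp; ring
  have t4 : y * (R * y * y * 1 * (1 + 7 * (4 * R))) ≤ L / Z := by
    refine le_trans ?_ (fin 29 3 2 (by linarith) (by norm_num) (by norm_num))
    calc _ ≤ Z * (R * Z * Z * 1 * (R + 7 * (4 * R))) := by gcongr
      _ = (Z ^ 10 * R ^ 3) * (29 * (Z ^ 3 * R ^ 2)) / (Z ^ 10 * R ^ 3) := by field_simp; ring
      _ ≤ _ := by gcongr; linarith
  have t5 : y * (y * y * (2 * Z * M / Z ^ 10) * (Z * L / M * 2)) ≤ L / Z := by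
    refine le_trans ?_ (fin 4 5 3 (by linarith) (by norm_num) (by norm_num))
    calc _ ≤ Z * (Z * Z * (2 * Z * M / Z ^ 10) * (Z * L / M * 2)) := by gcongr
      _ = _ := by field_simp; ring
  have t6 : y * (y * y * (1 / (2 * (R / L)))) ≤ L / Z := by
    calc _ ≤ Z * (Z * Z * (1 / (1 * (Z ^ 4 / L)))) := by gcongr; norm_num
      _ = _ := by field_simp
  refine ⟨by linarith, le_trans ?_ (fin 2 5 0 (by linarith) (by norm_num) (by norm_num))⟩
  calc _ ≤ Z * Z * (Z * L / M) * (Z * (2 * Z * M / (Z ^ 10 * R ^ 3))) := by gcongr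
    _ = _ := by field_simp

theorem pair_of (pr : Bool) (hC : CompleteStmt) (hW : WeylStmt pr) (hE : EqStmt pr)
    (hB : BadStmt pr) : PairStmt pr := by
  intro k κ Cπ hk hκ _
  obtain ⟨p₀, δ, hδ, hδ1, hld⟩ := ld_of hC k hκ
  obtain ⟨C, hW⟩ := hW k hk
  obtain ⟨δ', C', hδ', hδ'2, hC', hE⟩ := hE
  obtain ⟨C'', hC'', hB⟩ := hB
  set a : ℕ := 10 * C + 10 with ha
  set n : ℕ := 10 + a * 3 with hn
  refine ⟨p₀, ⌈(n : ℝ) / δ'⌉₊ + n, δ / 2, max 240 (max (max C' C'') (20 ^ (2 / δ))), by omega,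
    by positivity, ?_⟩
  intro ι _ _ q _ P r d X₁ X₂ L Z y xa xb π A B hp hinj hp₀ hP hlc hA hrd hdZ hcop hy hyZ hX₂ hlog
    hs hc hπ hπ1 hadm hop hIA hIB hAB hno
  have h := hld pr ι q P r d π hp hinj hp₀ hP.le hc (fun i n => (hπ i n).1) hπ1 hadm hop
  obtain ⟨hy1, hy2⟩ := max_le_iff.mp hy
  obtain ⟨hy2, hy3⟩ := max_le_iff.mp hy2
  have hZ : 240 ≤ Z := hy1.trans hyZ
  have hZ1 : 1 ≤ Z := by linarith
  have hZ0 : 0 < Z := by linarith
  have hy0 : 0 < y := by linarith
  have hd : 1 ≤ d := by omega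
  have hd1 : (1 : ℝ) ≤ d := by exact_mod_cast hd
  set R : ℝ := Z ^ a with hR
  have hS : Z ^ 10 * R ^ 3 = Z ^ n := by rw [hR, ← pow_mul, ← pow_add]
  have hM : Z ^ 10 * R ^ 3 ≤ X₂ := by
    rw [hS]; exact (pow_le_pow_right₀ hZ1 (by omega)).trans hX₂
  have hM1 : (1 : ℝ) ≤ X₂ := (one_le_pow₀ hZ1).trans hX₂
  have hM0 : (0 : ℝ) < X₂ := by linarith
  have hL1 : 1 ≤ L := hM1.trans hA.small
  have hL0 : 0 < L := by linarith
  have hR0 : 0 < R := by positivity
  set X₀ : ℝ := 2 * Z * X₂ with hX₀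
  have hdX : (d : ℝ) * X₂ ≤ Z * X₂ := by gcongr
  have hX₀1 : X₂ ≤ X₀ := by nlinarith
  have hrX : ∀ x : ℤ, x ≤ X₂ → (r : ℝ) + d * x ≤ X₀ := by
    intro x hx
    have h1 : (x : ℝ) ≤ X₂ := by exact_mod_cast hx
    have h2 : (r : ℝ) ≤ d := by exact_mod_cast hrd.le
    have h3 : (d : ℝ) * x ≤ d * X₂ := by gcongr
    nlinarith
  have hG : X₀ ^ (1 - δ') ≤ 2 * Z * X₂ / (Z ^ 10 * R ^ 3) := by
    rw [Real.rpow_sub (by linarith), Real.rpow_one, hS]
    gcongr
    calc Z ^ n = Z ^ (n : ℝ) := (Real.rpow_natCast Z n).symm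
      _ ≤ Z ^ (((⌈(n : ℝ) / δ'⌉₊ + n : ℕ) : ℝ) * δ') := by
          refine Real.rpow_le_rpow_of_exponent_le hZ1 ?_
          rw [← div_le_iff₀ hδ']
          push_cast
          linarith [Nat.le_ceil ((n : ℝ) / δ'), show (0 : ℝ) ≤ n by positivity]
      _ = (Z ^ (⌈(n : ℝ) / δ'⌉₊ + n)) ^ δ' := by rw [Real.rpow_mul hZ0.le, Real.rpow_natCast]
      _ ≤ _ := Real.rpow_le_rpow (by positivity) (hX₂.trans hX₀1) hδ'.le
  have hnum := numeric (w := 4 * L * y ^ (-δ)) (L := L) (C := max C' C'') hZ (by linarith) hyZ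
    (by positivity) (hy2.trans hyZ) (pow_le_pow_right₀ hZ1 (show 4 ≤ a by omega)) hM hA.small
    (by positivity) hG
  have hX1 : (1 : ℤ) ≤ X₁ := by exact_mod_cast hA.one_le
  have hdP : ∀ m : ℕ, dP P m = inc (fun m => P.eval m) (m : ℤ) := fun m => rfl
  have hconv : Conv (fun m => P.eval m) X₁ X₂ (Z * L / X₂) := by
    refine ⟨by exact_mod_cast hA.le, (hA.mono X₁ le_rfl hA.le).1.le, fun m h1 h2 => ?_, ?_⟩
    · obtain ⟨m, rfl⟩ := Int.eq_ofNat_of_zero_le (show 0 ≤ m by omega)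
      have := (hA.mono m (by omega) (by omega)).2
      rwa [hdP, hdP, Nat.cast_add, Nat.cast_one] at this
    · rw [le_div_iff₀ hM0, mul_comm, ← hdP]; exact hA.step
  have hrange : ((P.eval (X₂ : ℤ) : ℤ) : ℝ) - (P.eval (X₁ : ℤ) : ℤ) ≤ 4 * L := by
    have := hA.range; push_cast at this; exact this
  have hRZ : R * Z ≤ Z ^ (⌈(n : ℝ) / δ'⌉₊ + n) := by
    rw [hR, ← pow_succ]; exact pow_le_pow_right₀ hZ1 (by omega)
  have hZR : Z ≤ R := le_self_pow₀ hZ1 (by omega)
  have hsup := h.sup hδ.le hconv (phi pr r d) (y := y) (R := R) (R' := 4 * R) (ε := R / L)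
    (E₀ := max C' C'' * X₀ ^ (1 - δ') * (4 * (Z * (R * Z)))) (E₁ := X₀ / Z ^ 10) (by linarith)
    (hyZ.trans hZR) (by positivity) (by
      calc _ ≤ R / L * (4 * L) := by gcongr
        _ = _ := by field_simp)
    (fun l hl hlR hlq => ⟨(hs l hl (by nlinarith) hlq).1, (hs l hl (by nlinarith) hlq).2.1⟩)
    (fun Q hQ hQR ρ x h1 h2 => by
      have hQZ : (Q : ℝ) ≤ R * Z := hQR.trans (by gcongr)
      have hQ1 : (1 : ℝ) ≤ Q := by exact_mod_cast Nat.pos_of_ne_zero hQ
      refine (hE ι q r d Q X₁ x ρ X₀ hp hinj hrd hcop hQ (fun l hl hlQ hlq => (hs l hl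
        (le_trans (by exact_mod_cast Nat.le_of_dvd (Nat.pos_of_ne_zero hQ) hlQ) (hQZ.trans hRZ))
        hlq).2.2) hX1 h1 (hrX x h2)).trans ?_
      refine mul_le_mul (by gcongr; exact le_max_left _ _)
        ((Real.log_le_self (by positivity)).trans (by gcongr)) (Real.log_nonneg (by nlinarith))
        (by positivity))
    (fun α hα Q hQ _ ρ x h1 h2 => minor hW hP hlc hd
      (le_trans (by linarith) (le_self_pow₀ hZ1 (by norm_num))) (by linarith) (by
        have e1 : X₀ ≤ (2 * Z) * L := by rw [hX₀]; gcongr; exact hA.small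
        refine (Real.log_le_log (by linarith) e1).trans ?_
        rw [Real.log_mul (by positivity) hL0.ne']
        have e2 := Real.log_le_self (show 0 ≤ 2 * Z by positivity)
        have e3 : Z ^ 2 ≤ Z ^ 10 := pow_le_pow_right₀ hZ1 (by norm_num)
        nlinarith) (by
        rw [← pow_mul, hR]
        calc Z ^ (10 * C) * (P.leadingCoeff : ℝ) ≤ Z ^ (10 * C) * Z := by gcongr; exact hA.lead
          _ = Z ^ (10 * C + 1) := by ring
          _ ≤ _ := pow_le_pow_right₀ hZ1 (by omega)) (by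
        rw [← pow_mul, hR, div_mul_eq_mul_div, div_le_div_iff₀ (by positivity) hL0]
        calc Z ^ (10 * C) * (d : ℝ) ^ k * L ≤ Z ^ (10 * C) * (d : ℝ) ^ k * (Z * (X₂ : ℝ) ^ k) := by
              gcongr; exact hA.big
          _ = Z ^ (10 * C + 1) * ((d : ℝ) * X₂) ^ k := by ring
          _ ≤ _ := by
              refine mul_le_mul (pow_le_pow_right₀ hZ1 (by omega)) ?_ (by positivity)
                (by positivity)
              gcongr; nlinarith) hα hQ ρ hX1 h1 (hrX x h2)) (by positivity)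
  classical
  have hfin := pair_abs (Ico (X₁ : ℤ) X₂) (fun m => P.eval m) _ _ _ _ A B
    (fun m => pr = true ∧ ¬ ((r : ℤ) + d * m).toNat.Prime) (H := 4 * L * y ^ (-δ) + 5 * (L / Z))
    (E := L / Z) (fun α => (hsup α).trans (le_trans (by gcongr) hnum.1)) hAB (by
      intro x hx z hz m hm hb
      obtain ⟨h1, h2⟩ := mem_Ico.mp hm
      obtain ⟨m, rfl⟩ := Int.eq_ofNat_of_zero_le (show 0 ≤ m by omega)
      refine hno x hx z hz m (by omega) (by omega) fun hpr => ?_
      by_contra hnp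
      refine hb ⟨hpr, ?_⟩
      rwa [show ((r : ℤ) + d * m) = ((r + d * m : ℕ) : ℤ) by push_cast; ring, Int.toNat_natCast]) (by
      refine le_trans ?_ hnum.2
      have h1 := hB r d X₁ X₂ X₀ hrd hX1 hconv.le (hrX _ le_rfl)
      have h2 : C'' * √X₀ ≤ max C' C'' * X₀ ^ (1 - δ') := by
        refine mul_le_mul (le_max_right _ _) ?_ (by positivity) (by positivity)
        rw [Real.sqrt_eq_rpow]
        exact Real.rpow_le_rpow_of_exponent_le (by linarith) (by linarith)
      refine le_trans ?_ (mul_le_mul_of_nonneg_left (h1.trans h2) (by positivity))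
      rw [mul_sum]
      refine sum_le_sum fun m hm => ?_
      obtain ⟨h3, h4⟩ := mem_Ico.mp (mem_filter.mp hm).1
      rw [mul_right_comm, norm_mul, norm_mul, Complex.norm_intCast,
        abs_of_nonneg (by exact_mod_cast hconv.inc_nonneg h3 h4.le)]
      refine mul_le_mul_of_nonneg_right (mul_le_mul ?_ ?_ ?_ (by positivity)) (norm_nonneg _)
      · exact sum_low_le hp hinj hy0.le _ hy0.le fun S hS => (h.norm_th S m).trans hS
      · exact hconv.inc_le h3 h4.le
      · exact_mod_cast hconv.inc_nonneg h3 h4.le)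
  simp only [← proj_eq_ka q P π hπ1, ← Complex.ofReal_sum, Complex.norm_real,
    Real.norm_eq_abs] at hfin
  refine hfin.trans ?_
  have cA := ES.card_le_of_inI hIA hL0.le
  have cB := ES.card_le_of_inI hIB hL0.le
  have b1 : L / Z ≤ L * y ^ (-δ) := by
    rw [div_eq_mul_inv]
    gcongr
    calc Z⁻¹ ≤ y⁻¹ := by gcongr
      _ = y ^ (-1 : ℝ) := (Real.rpow_neg_one y).symm
      _ ≤ _ := Real.rpow_le_rpow_of_exponent_le (by linarith) (by linarith)
  have b2 : 20 * y ^ (-δ) ≤ y ^ (-(δ / 2)) := by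
    have e1 : (20 : ℝ) ≤ y ^ (δ / 2) := by
      calc (20 : ℝ) = (20 ^ (2 / δ)) ^ (δ / 2) := by
            rw [← Real.rpow_mul (by norm_num), show 2 / δ * (δ / 2) = 1 by field_simp,
              Real.rpow_one]
        _ ≤ _ := by gcongr
    calc 20 * y ^ (-δ) ≤ y ^ (δ / 2) * y ^ (-δ) := by gcongr
      _ = _ := by rw [← Real.rpow_add hy0]; congr 1; ring
  calc _ ≤ (4 * L * y ^ (-δ) + 5 * (L * y ^ (-δ))) * ((2 * L + 2 * L) / 2) +
        2 * L * (L * y ^ (-δ)) := by gcongr <;> linarith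
    _ = L ^ 2 * (20 * y ^ (-δ)) := by ring
    _ ≤ _ := by gcongr

end Crest.Agent.N41.Pair
end

-- ▼ part N41/Pair/Eq
section

/-!
# Row 41, Pair Lemma (helper98): equidistribution of the weight in residue classes
-/

set_option autoImplicit false

open Finset Polynomial
open scoped BigOperators

namespace Crest.Agent.N41.Pair

lemma one_le_log_four_mul {d Q : ℕ} (hd : 1 ≤ d) (hQ : Q ≠ 0) :
    1 ≤ Real.log (4 * ((d : ℝ) * Q)) := by
  have h1 : (1 : ℝ) ≤ d := by exact_mod_cast hd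
  have h2 : (1 : ℝ) ≤ Q := by exact_mod_cast Nat.pos_of_ne_zero hQ
  have h3 : (1 : ℝ) ≤ (d : ℝ) * Q := one_le_mul_of_one_le_of_one_le h1 h2
  have h4 := Real.log_le_log (x := 2 ^ 2) (y := 4 * ((d : ℝ) * Q)) (by norm_num) (by linarith)
  rw [Real.log_pow] at h4
  have := Real.log_two_gt_d9
  push_cast at h4
  linarith

lemma one_le_X {r d : ℕ} {a x : ℤ} {X : ℝ} (hd : 1 ≤ d) (ha : 1 ≤ a) (hx : a ≤ x)
    (hX : (r : ℝ) + d * x ≤ X) : 1 ≤ X := by
  have h1 : (1 : ℝ) ≤ d := by exact_mod_cast hd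
  have h2 : (1 : ℝ) ≤ x := by exact_mod_cast ha.trans hx
  have h3 : (0 : ℝ) ≤ r := Nat.cast_nonneg r
  nlinarith

theorem eq_false : EqStmt false := by
  refine ⟨1 / 2, 1, by norm_num, le_rfl, le_rfl, ?_⟩
  intro ι _ _ q _ r d Q a x ρ X _ _ hrd _ hQ _ ha hx hX
  have hd : 1 ≤ d := by omega
  have h1 : dens q (fun i => iot false r d (q i)) Q ρ = 1 := by simp [dens, iot]
  have h2 : ∀ m, phi false r d m = 1 := fun m => by simp [phi, cw, wt]
  simp only [h1, h2, sum_const, nsmul_eq_mul, mul_one, one_mul]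
  have h3 := card_class' hQ hx ρ
  rw [← Real.norm_eq_abs, ← Complex.norm_real] at h3
  push_cast at h3
  refine h3.trans ?_
  exact one_le_mul_of_one_le_of_one_le (Real.one_le_rpow (one_le_X hd ha hx hX) (by norm_num))
    (one_le_log_four_mul hd hQ)

lemma totient_real (n : ℕ) : (n.totient : ℝ) = n * ∏ p ∈ n.primeFactors, (1 - (p : ℝ)⁻¹) := by
  have := congrArg (fun z : ℚ => (z : ℝ)) (Nat.totient_eq_mul_prod_factors n)
  simpa using this

lemma totient_mul_eq {ι : Type} [Fintype ι] [DecidableEq ι] (q : ι → ℕ)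
    (hq : ∀ i, (q i).Prime) (hinj : Function.Injective q) {d Q : ℕ} (hd : 1 ≤ d) (hQ : Q ≠ 0)
    (hout : ∀ p : ℕ, p.Prime → p ∣ Q → p ∉ Set.range q → p ∣ d) :
    ((d * Q).totient : ℝ) = d.totient * Q *
      ∏ i ∈ univ.filter (fun i => q i ∣ Q ∧ ¬ q i ∣ d), (1 - (q i : ℝ)⁻¹) := by
  have h1 : (d * Q).primeFactors =
      d.primeFactors ∪ (univ.filter (fun i => q i ∣ Q ∧ ¬ q i ∣ d)).image q := by
    rw [Nat.primeFactors_mul (by omega) hQ]
    ext p
    simp only [mem_union, Nat.mem_primeFactors, mem_image, mem_filter, mem_univ, true_and]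
    constructor
    · rintro (h | ⟨hp, hpQ, _⟩)
      · exact Or.inl h
      · by_cases hpd : p ∣ d
        · exact Or.inl ⟨hp, hpd, by omega⟩
        · have : p ∈ Set.range q := by
            by_contra h
            exact hpd (hout p hp hpQ h)
          obtain ⟨i, rfl⟩ := this
          exact Or.inr ⟨i, ⟨hpQ, hpd⟩, rfl⟩
    · rintro (h | ⟨i, hi, rfl⟩)
      · exact Or.inl h
      · exact Or.inr ⟨hq i, hi.1, hQ⟩
  have h2 : Disjoint d.primeFactors ((univ.filter (fun i => q i ∣ Q ∧ ¬ q i ∣ d)).image q) := by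
    rw [disjoint_left]
    intro p hp hp'
    obtain ⟨i, hi, rfl⟩ := mem_image.1 hp'
    exact (mem_filter.1 hi).2.2 (Nat.dvd_of_mem_primeFactors hp)
  rw [totient_real, totient_real d, h1, prod_union h2, prod_image fun i _ j _ h => hinj h]
  push_cast; ring

/-- the von Mangoldt function on multiples of a prime -/
lemma sum_vonMangoldt_dvd_le {p B : ℕ} (hp : p.Prime) (S : Finset ℕ)
    (hS : ∀ n ∈ S, p ∣ n ∧ n ≤ B) (hB : 1 ≤ B) :
    ∑ n ∈ S, ArithmeticFunction.vonMangoldt n ≤ Real.log B := by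
  have h1 : ∑ n ∈ S, ArithmeticFunction.vonMangoldt n =
      ∑ n ∈ S.filter IsPrimePow, ArithmeticFunction.vonMangoldt n := by
    rw [sum_filter]
    refine sum_congr rfl fun n _ => ?_
    split_ifs with h
    · rfl
    · exact ArithmeticFunction.vonMangoldt_eq_zero_iff.2 h
  have h2 : S.filter IsPrimePow ⊆ (p ^ Nat.log p B).divisors := by
    intro n hn
    obtain ⟨hn1, hn2⟩ := mem_filter.1 hn
    obtain ⟨l, k, hl, hk, rfl⟩ := (isPrimePow_nat_iff n).1 hn2
    obtain rfl : p = l := (Nat.prime_dvd_prime_iff_eq hp hl).1 (hp.dvd_of_dvd_pow (hS _ hn1).1)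
    exact Nat.mem_divisors.2 ⟨pow_dvd_pow _ (Nat.le_log_of_pow_le hp.one_lt (hS _ hn1).2),
      pow_ne_zero _ hp.ne_zero⟩
  rw [h1]
  refine (sum_le_sum_of_subset_of_nonneg h2 fun _ _ _ =>
    ArithmeticFunction.vonMangoldt_nonneg).trans ?_
  rw [ArithmeticFunction.vonMangoldt_sum]
  refine Real.log_le_log (by exact_mod_cast pow_pos hp.pos _) ?_
  exact_mod_cast Nat.pow_log_le_self p (by omega : B ≠ 0)

theorem eq_true (hP : PsiAP) : EqStmt true := by
  obtain ⟨δ₀, C₀, hδ₀, hC₀, hP⟩ := hP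
  refine ⟨min δ₀ (1 / 2), 2 * C₀ + 2, by positivity, min_le_right _ _, by linarith, ?_⟩
  intro ι _ _ q _ r d Q a x ρ X hq hinj hrd hcop hQ hout ha hx hX
  have hd : 1 ≤ d := by omega
  have hX1 := one_le_X hd ha hx hX
  have hlog := one_le_log_four_mul hd hQ
  have hδ1 := min_le_left δ₀ (1 / 2)
  have hδ2 := min_le_right δ₀ (1 / 2)
  set δ := min δ₀ (1 / 2) with hδ
  have hXp : 1 ≤ X ^ (1 - δ) := Real.one_le_rpow hX1 (by linarith)
  have hd0 : (0 : ℝ) < d := by exact_mod_cast hd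
  have hQ0 : (0 : ℝ) < Q := by exact_mod_cast Nat.pos_of_ne_zero hQ
  have hcw0 : 0 ≤ cw true d := by simp only [cw, if_true]; positivity
  have hcw1 : cw true d ≤ 1 := by
    simp only [cw, if_true]
    rw [div_le_one hd0]; exact_mod_cast Nat.totient_le d
  set ρ' : ℕ := r + d * (ρ % Q).toNat with hρ'
  set A : ℕ := r + d * a.toNat - 1 with hA
  set B : ℕ := r + d * x.toNat - 1 with hB
  have haN : ((a.toNat : ℕ) : ℤ) = a := Int.toNat_of_nonneg (by omega)
  have hxN : ((x.toNat : ℕ) : ℤ) = x := Int.toNat_of_nonneg (by omega)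
  have ha1 : 1 ≤ d * a.toNat := Nat.mul_pos hd (by omega)
  have hax : d * a.toNat ≤ d * x.toNat := Nat.mul_le_mul_left d (by omega)
  have hAB : A ≤ B := by omega
  have hAR : (A : ℝ) = r + d * a - 1 := by
    have : (A : ℤ) = r + d * a - 1 := by rw [hA, Nat.cast_sub (by omega)]; push_cast; rw [haN]
    exact_mod_cast this
  have hBR : (B : ℝ) = r + d * x - 1 := by
    have : (B : ℤ) = r + d * x - 1 := by rw [hB, Nat.cast_sub (by omega)]; push_cast; rw [hxN]
    exact_mod_cast this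
  have hBX : (B : ℝ) ≤ X := by linarith
  set T : ℝ := ∑ n ∈ (Ioc A B).filter (fun n => n ≡ ρ' [MOD d * Q]),
    ArithmeticFunction.vonMangoldt n with hT
  have hsum : ∑ m ∈ (Ico a x).filter (fun m => (Q : ℤ) ∣ m - ρ), phi true r d m =
      ((cw true d * T : ℝ) : ℂ) := by
    rw [hT, mul_sum, Complex.ofReal_sum]
    exact reindex hd hQ ha hx ρ fun n => ((cw true d * wt true n : ℝ) : ℂ)
  have hcast : ∀ i, q i ∣ Q → ((ρ' : ℕ) : ZMod (q i)) = (r : ZMod (q i)) + d * (ρ : ZMod (q i)) := by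
    intro i hi
    have h1 : (((ρ % Q).toNat : ℕ) : ℤ) = ρ % Q :=
      Int.toNat_of_nonneg (Int.emod_nonneg ρ (by exact_mod_cast hQ))
    have h2 : (((ρ % Q).toNat : ℕ) : ZMod (q i)) = (ρ : ZMod (q i)) := by
      rw [← Int.cast_natCast, h1, ZMod.intCast_eq_intCast_iff]
      exact (Int.mod_modEq ρ Q).of_dvd (by exact_mod_cast hi)
    rw [hρ']; push_cast; rw [h2]
  rw [hsum]
  by_cases hco : Nat.Coprime ρ' (d * Q)
  · have hbd : ∀ y : ℕ, (y : ℝ) ≤ X →
        |∑ n ∈ (Ioc 0 y).filter (fun n => n ≡ ρ' [MOD d * Q]), ArithmeticFunction.vonMangoldt n -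
          (y : ℝ) / ((d * Q).totient : ℝ)| ≤ C₀ * X ^ (1 - δ) * Real.log (4 * ((d : ℝ) * Q)) := by
      intro y hy
      rcases Nat.eq_zero_or_pos y with rfl | hy0
      · simp only [Ioc_self, filter_empty, sum_empty, Nat.cast_zero, zero_div, sub_self, abs_zero]
        positivity
      have hy1 : (1 : ℝ) ≤ y := by exact_mod_cast hy0
      refine (hP (d * Q) ρ' y (Nat.mul_pos hd (Nat.pos_of_ne_zero hQ)) hco).trans ?_
      have h1 : (y : ℝ) ^ (1 - δ₀) ≤ X ^ (1 - δ) :=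
        (Real.rpow_le_rpow_of_exponent_le hy1 (by linarith)).trans
          (Real.rpow_le_rpow (by linarith) hy (by linarith))
      have h2 : (0 : ℝ) < (d : ℝ) * Q := by positivity
      have h3 : Real.log (2 * ((d * Q : ℕ) : ℝ)) ≤ Real.log (4 * ((d : ℝ) * Q)) := by
        push_cast; exact Real.log_le_log (by positivity) (by linarith)
      have h4 : 0 ≤ Real.log (2 * ((d * Q : ℕ) : ℝ)) := by
        have : (1 : ℝ) ≤ ((d * Q : ℕ) : ℝ) := by
          exact_mod_cast Nat.mul_pos hd (Nat.pos_of_ne_zero hQ)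
        exact Real.log_nonneg (by linarith)
      gcongr
    have hsplit : T = ∑ n ∈ (Ioc 0 B).filter (fun n => n ≡ ρ' [MOD d * Q]),
        ArithmeticFunction.vonMangoldt n - ∑ n ∈ (Ioc 0 A).filter (fun n => n ≡ ρ' [MOD d * Q]),
        ArithmeticFunction.vonMangoldt n := by
      rw [hT, sum_filter, sum_filter, sum_filter, eq_sub_iff_add_eq, add_comm]
      exact sum_Ioc_consecutive _ (Nat.zero_le A) hAB
    set R : ℝ := ∏ i ∈ univ.filter (fun i => q i ∣ Q ∧ ¬ q i ∣ d), (1 - (q i : ℝ)⁻¹) with hR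
    have hq2 : ∀ i, (2 : ℝ) ≤ q i := fun i => by exact_mod_cast (hq i).two_le
    have hR0 : 0 < R := prod_pos fun i _ => by
      have := hq2 i
      rw [sub_pos]; exact inv_lt_one_of_one_lt₀ (by linarith)
    have hdens : dens q (fun i => iot true r d (q i)) Q ρ = ((R⁻¹ : ℝ) : ℂ) := by
      rw [dens, hR, ← prod_inv_distrib, ← Complex.ofReal_prod, ← filter_filter,
        prod_filter (s := univ.filter fun i => q i ∣ Q)]
      congr 1
      refine prod_congr rfl fun i hi => ?_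
      have hi' := (mem_filter.1 hi).2
      simp only [iot, true_and]
      split_ifs with h1 h2
      · rfl
      · exfalso
        rw [← hcast i hi', ZMod.natCast_eq_zero_iff] at h2
        have h3 := Nat.dvd_gcd h2 (Dvd.dvd.mul_left hi' d)
        rw [hco] at h3
        exact (hq i).one_lt.ne' (Nat.dvd_one.1 h3)
      · have := hq2 i
        have h4 : (q i : ℝ) - 1 ≠ 0 := by linarith
        field_simp
    have htot := totient_mul_eq q hq hinj hd hQ fun p h1 h2 h3 => hout p h1 h2 h3 rfl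
    rw [← hR] at htot
    have hφ : (0 : ℝ) < d.totient := by exact_mod_cast Nat.totient_pos.2 hd
    have hmain : ((x : ℝ) - a) / Q * R⁻¹ = cw true d *
        ((B : ℝ) / ((d * Q).totient : ℝ) - (A : ℝ) / ((d * Q).totient : ℝ)) := by
      rw [htot, hAR, hBR]
      simp only [cw, if_true]
      field_simp
      ring
    have e1 : ((cw true d * T : ℝ) : ℂ) - ((x : ℂ) - a) / Q * ((R⁻¹ : ℝ) : ℂ) =
        ((cw true d * T - ((x : ℝ) - a) / Q * R⁻¹ : ℝ) : ℂ) := by push_cast; ring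
    rw [hdens, e1, Complex.norm_real, Real.norm_eq_abs, hmain, ← mul_sub, abs_mul,
      abs_of_nonneg hcw0, hsplit]
    have h1 := abs_le.1 (hbd B hBX)
    have h2 := abs_le.1 (hbd A ((Nat.cast_le.2 hAB).trans hBX))
    refine (mul_le_of_le_one_left (abs_nonneg _) hcw1).trans ?_
    have h3 : 0 ≤ X ^ (1 - δ) * Real.log (4 * ((d : ℝ) * Q)) := by positivity
    rw [abs_le]; constructor <;> nlinarith
  · obtain ⟨p, hp, hp1, hp2⟩ := Nat.Prime.not_coprime_iff_dvd.1 hco
    have hpd : ¬ p ∣ d := by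
      intro h
      have h1 : p ∣ r := (Nat.dvd_add_left (Dvd.dvd.mul_right h _)).1 hp1
      have h3 := Nat.dvd_gcd h1 h
      rw [hcop rfl] at h3
      exact hp.one_lt.ne' (Nat.dvd_one.1 h3)
    have hpQ : p ∣ Q := ((Nat.Prime.dvd_mul hp).1 hp2).resolve_left hpd
    obtain ⟨i, rfl⟩ : p ∈ Set.range q := by
      by_contra h
      exact hpd (hout p hp hpQ h rfl)
    have hdens : dens q (fun i => iot true r d (q i)) Q ρ = 0 := by
      refine prod_eq_zero (i := i) (mem_filter.2 ⟨mem_univ _, hpQ⟩) ?_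
      have h1 : (r : ZMod (q i)) + d * (ρ : ZMod (q i)) = 0 := by
        rw [← hcast i hpQ, ZMod.natCast_eq_zero_iff]; exact hp1
      simp [iot, hpd, h1]
    have hT0 : 0 ≤ T := sum_nonneg fun _ _ => ArithmeticFunction.vonMangoldt_nonneg
    have hT1 : T ≤ 2 * X ^ (1 - δ) := by
      rcases Nat.eq_zero_or_pos B with hB0 | hB0
      · rw [hT, hB0, Ioc_eq_empty (by omega)]; simp; positivity
      have h1 := sum_vonMangoldt_dvd_le (B := B) hp
        ((Ioc A B).filter (fun n => n ≡ ρ' [MOD d * Q])) (fun n hn => by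
          rw [mem_filter, mem_Ioc] at hn
          exact ⟨((hn.2.of_dvd hp2).dvd_iff dvd_rfl).2 hp1, hn.1.2⟩) hB0
      have h2 : Real.log B ≤ Real.log X := Real.log_le_log (by exact_mod_cast hB0) hBX
      have h3 := Real.log_le_rpow_div (x := X) (ε := 1 / 2) (by linarith) (by norm_num)
      have h4 : X ^ (1 / 2 : ℝ) ≤ X ^ (1 - δ) :=
        Real.rpow_le_rpow_of_exponent_le hX1 (by linarith)
      linarith
    rw [hdens, mul_zero, sub_zero, Complex.norm_real, Real.norm_eq_abs,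
      abs_of_nonneg (by positivity)]
    have h5 : cw true d * T ≤ T := mul_le_of_le_one_left hT0 hcw1
    have h6 : X ^ (1 - δ) ≤ X ^ (1 - δ) * Real.log (4 * ((d : ℝ) * Q)) :=
      le_mul_of_one_le_right (by positivity) hlog
    have h7 : 0 ≤ C₀ * (X ^ (1 - δ) * Real.log (4 * ((d : ℝ) * Q))) := by positivity
    nlinarith

end Crest.Agent.N41.Pair
end

-- ▼ part N41/Pair/Bad

/-!
# Row 41, Pair Lemma (helper5): the proper prime powers are negligible.
-/

set_option autoImplicit false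

open Finset Polynomial
open scoped BigOperators

namespace Crest.Agent.N41.Pair

lemma cw_nonneg (pr : Bool) (d : ℕ) : 0 ≤ cw pr d := by
  unfold cw; split_ifs <;> positivity

lemma cw_le_one (pr : Bool) (d : ℕ) : cw pr d ≤ 1 := by
  unfold cw
  split_ifs
  · exact div_le_one_of_le₀ (by exact_mod_cast Nat.totient_le d) (Nat.cast_nonneg _)
  · exact le_rfl

theorem bad (pr : Bool) : BadStmt pr := by
  obtain ⟨C, hC⟩ := Chebyshev.psi_sub_theta_le_mul_sqrt
  refine ⟨max C 1, le_max_right _ _, fun r d a b X hrd ha hab hX => ?_⟩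
  cases pr with
  | false => simp
  | true =>
    have hd : (0 : ℤ) < d := by omega
    have hcast : ∀ m : ℤ, 0 ≤ m → ((((r : ℤ) + d * m).toNat : ℕ) : ℤ) = r + d * m := fun m hm =>
      Int.toNat_of_nonneg (by positivity)
    have h1 : ∀ m : ℤ, ‖phi true r d m‖ ≤
        ArithmeticFunction.vonMangoldt ((r : ℤ) + d * m).toNat := fun m => by
      have h0 : 0 ≤ ArithmeticFunction.vonMangoldt ((r : ℤ) + d * m).toNat :=
        ArithmeticFunction.vonMangoldt_nonneg
      rw [phi, Complex.norm_real, wt, if_pos rfl,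
        Real.norm_of_nonneg (mul_nonneg (cw_nonneg _ _) h0)]
      exact mul_le_of_le_one_left h0 (cw_le_one _ _)
    refine (sum_le_sum fun m _ => h1 m).trans ?_
    rw [← sum_image (f := fun n : ℕ => ArithmeticFunction.vonMangoldt n)
      (g := fun m : ℤ => ((r : ℤ) + d * m).toNat)]
    · refine le_trans ?_ ((hC X).trans
        (mul_le_mul_of_nonneg_right (le_max_left _ _) (Real.sqrt_nonneg _)))
      rw [Chebyshev.psi_sub_theta_eq_sum_not_prime]
      refine sum_le_sum_of_subset_of_nonneg (fun n hn => ?_)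
        fun _ _ _ => ArithmeticFunction.vonMangoldt_nonneg
      obtain ⟨m, hm, rfl⟩ := mem_image.1 hn
      obtain ⟨h2, -, h3⟩ := mem_filter.1 hm
      obtain ⟨h4, h5⟩ := mem_Ico.1 h2
      have h6 := hcast m (by omega)
      have h7 : (d : ℤ) * 1 ≤ d * m := by gcongr; omega
      have h8 : (d : ℤ) * m ≤ d * b := by gcongr
      refine mem_filter.2 ⟨mem_Ioc.2 ⟨by omega, Nat.le_floor (le_trans ?_ hX)⟩, h3⟩
      have h9 : ((((r : ℤ) + d * m).toNat : ℕ) : ℤ) ≤ r + d * b := by omega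
      exact_mod_cast h9
    · intro m hm m' hm' he
      have h1 := hcast m (by have := (mem_Ico.1 (mem_filter.1 hm).1).1; omega)
      have h2 := hcast m' (by have := (mem_Ico.1 (mem_filter.1 hm').1).1; omega)
      simp only at he
      rw [he, h2] at h1
      exact (mul_left_cancel₀ hd.ne' (add_left_cancel h1)).symm

end Crest.Agent.N41.Pair
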